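import Vale.Agent.P011.H169.C2.Quad
import Vale.Agent.P011.H961.SetG
import Vale.Agent.P011.Hey.H63.PlaceRes

/-!
# Characteristic two: the centralizer of a symmetric Artin-Schreier element

`A` is a central simple algebra of degree `2 m` over `K` with an anisotropic involution of the
second kind, `k` is the fixed field, the characteristic is two, `t` is symmetric, `t * t + t = a`
with `a` in `k`, and the nonzero elements commuting with `t` are units. Then the centralizer of `t`
is a division algebra of degree `m` over `K(t)` with an involution of the second kind with fixed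
field `k(t)`.
-/

open Module

set_option linter.unusedSectionVars false

namespace Vale.Agent.P011.H169.C2

open Vale.Agent.P011.H738 Vale.Agent.P011.H271 Vale.Agent.P011.H961

/-- `C` is the centralizer of `t` in `A` (by means of `j`), `L = k(t)` and `K' = K(t)`,
`t * t + t = a`. -/
structure IsCent2 (k K A L K' C : Type) [Field k] [Field K] [Ring A] [StarRing A]
    [Algebra k K] [Algebra k A] [Algebra K A] [Field L] [Field K'] [DivisionRing C] [StarRing C]
    [Algebra k L] [Algebra K K'] [Algebra L K'] [Algebra L C] [Algebra K' C]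
    (t : A) (a : k) (T : L) (j : C →+* A) : Prop where
  rkL : finrank k L = 2
  rkK : finrank K K' = 2
  sqT : T * T + T = algebraMap k L a
  repL : ∀ l : L, ∃ u v : k, l = algebraMap k L u + algebraMap k L v * T
  repK : ∀ l : K', ∃ u v : K, l = algebraMap K K' u + algebraMap K K' v * algebraMap L K' T
  comp : ∀ c : k, algebraMap K K' (algebraMap k K c) = algebraMap L K' (algebraMap k L c)
  inj : Function.Injective j
  star : ∀ x, j (star x) = star (j x)
  range : ∀ y, y * t = t * y ↔ ∃ x, j x = y
  jT : j (algebraMap L C T) = t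
  jK : ∀ c : K, j (algebraMap K' C (algebraMap K K' c)) = algebraMap K A c

section basic

variable {k K A L K' C : Type} [Field k] [Field K] [Ring A] [StarRing A]
    [Algebra k K] [Algebra k A] [Algebra K A] [Field L] [Field K'] [DivisionRing C] [StarRing C]
    [Algebra k L] [Algebra K K'] [Algebra L K'] [Algebra L C] [Algebra K' C]
    [IsScalarTower k K A] [IsScalarTower L K' C]
    {t : A} {a : k} {T : L} {j : C →+* A}

theorem IsCent2.jk (h : IsCent2 k K A L K' C t a T j) (c : k) :
    j (algebraMap L C (algebraMap k L c)) = algebraMap k A c := by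
  rw [IsScalarTower.algebraMap_apply L K' C, ← h.comp, h.jK, ← IsScalarTower.algebraMap_apply]

theorem IsCent2.comm (h : IsCent2 k K A L K' C t a T j) (x : C) : j x * t = t * j x :=
  (h.range _).mpr ⟨x, rfl⟩

theorem IsCent2.sq (h : IsCent2 k K A L K' C t a T j) : t * t + t = algebraMap k A a := by
  rw [← h.jT, ← map_mul, ← map_mul, ← map_add, ← map_add, h.sqT, h.jk]

theorem IsCent2.jTK (h : IsCent2 k K A L K' C t a T j) :
    j (algebraMap K' C (algebraMap L K' T)) = t := by
  rw [← IsScalarTower.algebraMap_apply, h.jT]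

/-- The involution on `K'` extends the one of `K`. -/
theorem starK2 [StarRing K] [StarModule K A] [StarRing K'] (hC : SetG L K' C)
    (h : IsCent2 k K A L K' C t a T j) (c : K) :
    star (algebraMap K K' c) = algebraMap K K' (star c) := by
  apply (algebraMap K' C).injective
  apply h.inj
  rw [← hC.star_algebraMapD, h.star, h.jK, h.jK, ← algebraMap_star_comm]

theorem starT2 [StarRing K'] (hC : SetG L K' C) (T : L) :
    star (algebraMap L K' T) = algebraMap L K' T := (hC.fix _).mpr ⟨T, rfl⟩

end basic

section ring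

variable {k K A : Type} [Field k] [Field K] [StarRing K] [Ring A] [StarRing A]
    [Algebra k K] [Algebra k A] [Algebra K A] [IsScalarTower k K A] {t : A} {a : k}

theorem dat (ht : Dat k A t a) : Dat K A t (algebraMap k K a) :=
  ⟨ht.nt, by rw [ht.eq, IsScalarTower.algebraMap_apply k K A], ht.inv⟩

variable (K) in
theorem mem_LK (ht : Dat k A t a) {x : A} (hx : x ∈ Lt ht.eq) : x ∈ Lt (dat (K := K) ht).eq := by
  obtain ⟨u, v, rfl⟩ := hx
  exact ⟨algebraMap k K u, algebraMap k K v, by
    rw [IsScalarTower.algebraMap_apply k K A, IsScalarTower.algebraMap_apply k K A v]⟩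

/-- The inclusion of the small field in the big one. -/
noncomputable def ff (ht : Dat k A t a) : FL ht →+* FL (dat (K := K) ht) where
  toFun x := ⟨fv ht x, mem_LK K ht x.2⟩
  map_one' := rfl
  map_mul' _ _ := rfl
  map_zero' := rfl
  map_add' _ _ := rfl

noncomputable instance (priority := 50) algFF (ht : Dat k A t a) :
    Algebra (FL ht) (FL (dat (K := K) ht)) := (ff ht).toAlgebra

noncomputable instance (priority := 50) algFCk (ht : Dat k A t a) :
    Algebra (FL ht) (CT (dat (K := K) ht)) :=
  ((fc (dat (K := K) ht)).comp (ff ht)).toAlgebra' fun x y => cv_inj _ (by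
    rw [map_mul, map_mul]
    exact fv_cv_comm (dat (K := K) ht) (ff ht x) y)

instance (priority := 50) towFCk (ht : Dat k A t a) :
    IsScalarTower (FL ht) (FL (dat (K := K) ht)) (CT (dat (K := K) ht)) :=
  IsScalarTower.of_algebraMap_eq fun _ => rfl

theorem cv_algL (ht : Dat k A t a) (x : FL ht) :
    cv (dat (K := K) ht) (algebraMap (FL ht) (CT (dat (K := K) ht)) x) = fv ht x := rfl

theorem fv_algL (ht : Dat k A t a) (x : FL ht) :
    fv (dat (K := K) ht) (algebraMap (FL ht) (FL (dat (K := K) ht)) x) = fv ht x := rfl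

theorem algLK (ht : Dat k A t a) (c : k) : algebraMap K (FL (dat (K := K) ht)) (algebraMap k K c) =
    algebraMap (FL ht) (FL (dat (K := K) ht)) (algebraMap k (FL ht) c) := fv_inj _ (by
  rw [fv_algL, fv_alg, fv_alg, IsScalarTower.algebraMap_apply k K A])

variable [StarModule K A]

theorem star_algK (c : K) : star (algebraMap K A c) = algebraMap K A (star c) :=
  (algebraMap_star_comm c).symm

theorem star_mem_Lt (ht : Dat k A t a) (hts : star t = t) {x : A}
    (hx : x ∈ Lt (dat (K := K) ht).eq) : star x ∈ Lt (dat (K := K) ht).eq := by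
  obtain ⟨u, v, rfl⟩ := hx
  refine ⟨star u, star v, ?_⟩
  rw [star_add, star_mul, hts, star_algK, star_algK, Algebra.commutes]

/-- The involution of the centralizer. -/
@[reducible] def starCT (ht : Dat k A t a) (hts : star t = t) :
    StarRing (CT (dat (K := K) ht)) where
  star x := ⟨star (x.1 : A), mem_cen.mpr (by
    have h := cv_comm (dat (K := K) ht) x
    have h2 := congrArg star h
    rw [star_mul, star_mul, hts] at h2
    exact h2.symm)⟩
  star_involutive x := cv_inj _ (star_star (x.1 : A))
  star_mul x y := cv_inj _ (star_mul (x.1 : A) y.1)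
  star_add x y := cv_inj _ (star_add (x.1 : A) y.1)

/-- The involution of the big field. -/
@[reducible] def starFL (ht : Dat k A t a) (hts : star t = t) :
    StarRing (FL (dat (K := K) ht)) where
  star x := ⟨star (x.1 : A), star_mem_Lt ht hts x.2⟩
  star_involutive x := fv_inj _ (star_star (x.1 : A))
  star_mul x y := fv_inj _ (star_mul (x.1 : A) y.1)
  star_add x y := fv_inj _ (star_add (x.1 : A) y.1)

variable {n : ℕ}

/-- `t` is not in `K`. -/
theorem t_ne (hA : Anis k K A n) (ht : Dat k A t a) (hts : star t = t)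
    (ha : ∀ z : k, z * z + z ≠ a) (c : K) : algebraMap K A c ≠ t := by
  have := ht.nt
  intro h
  have h1 := hts
  rw [← h, star_algK] at h1
  have h2 : star c = c := (algebraMap K A).injective h1
  obtain ⟨r, rfl⟩ := (hA.fixed c).mp h2
  rw [← IsScalarTower.algebraMap_apply] at h
  apply ha r
  apply (algebraMap k A).injective
  rw [← ht.eq, ← h, map_add, map_mul]

theorem t_nek (hA : Anis k K A n) (ht : Dat k A t a) (hts : star t = t)
    (ha : ∀ z : k, z * z + z ≠ a) (c : k) : algebraMap k A c ≠ t := by
  rw [IsScalarTower.algebraMap_apply k K A]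
  exact t_ne hA ht hts ha _

theorem two_A (h2 : (2 : k) = 0) : (2 : A) = 0 := by
  rw [← map_ofNat (algebraMap k A) 2, h2, map_zero]

/-- An invertible element `y` with `y * t = (t + 1) * y`. -/
theorem exists_y (h2 : (2 : k) = 0) (hA : Anis k K A n) (ht : Dat k A t a) (hts : star t = t)
    (ha : ∀ z : k, z * z + z ≠ a) :
    ∃ y z : A, y * t = (t + 1) * y ∧ z * t = (t + 1) * z ∧ y * z = 1 ∧ z * y = 1 := by
  have h2A : (2 : A) = 0 := two_A h2
  have hac : ∀ x : A, algebraMap k A a * x = x * algebraMap k A a := fun x =>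
    Algebra.commutes a x
  -- `t` is not central
  obtain ⟨x, hx⟩ : ∃ x : A, x * t + t * x ≠ 0 := by
    by_contra hcon
    push Not at hcon
    have hcen : t ∈ Subalgebra.center K A := by
      rw [Subalgebra.mem_center_iff]
      intro b
      have h3 := hcon b
      have h4 : b * t - t * b = (b * t + t * b) - 2 * (t * b) := by noncomm_ring
      rw [h3, h2A, zero_mul, sub_zero] at h4
      exact sub_eq_zero.mp h4
    rw [hA.central.center_eq_bot] at hcen
    obtain ⟨c, hc⟩ := Algebra.mem_bot.mp hcen
    exact t_ne hA ht hts ha c hc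
  obtain ⟨y, hy⟩ : ∃ y, y = x * t + t * x := ⟨_, rfl⟩
  rw [← hy] at hx
  have hyt : y * t = (t + 1) * y := by
    rw [hy]
    exact wt_comm h2A hac ht.eq x
  have hst : star y * t = (t + 1) * star y := wt_star h2A hts hyt
  have hy1 : star y * y ≠ 0 := fun h0 => hx (hA.anisotropic y h0)
  have hy2 : y * star y ≠ 0 := fun h0 => hx (by
    have h3 := hA.anisotropic (star y) (by rw [star_star]; exact h0)
    rwa [star_eq_zero] at h3)
  obtain ⟨u, hu⟩ := ht.inv _ (wt_mul h2A hst hyt) hy1
  obtain ⟨u', hu'⟩ := ht.inv _ (wt_mul h2A hyt hst) hy2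
  have hl : (((u⁻¹ : Aˣ) : A) * star y) * y = 1 := by rw [mul_assoc, ← hu, Units.inv_mul]
  have hr : y * (star y * ((u'⁻¹ : Aˣ) : A)) = 1 := by rw [← mul_assoc, ← hu', Units.mul_inv]
  have hlr : ((u⁻¹ : Aˣ) : A) * star y = star y * ((u'⁻¹ : Aˣ) : A) := left_inv_eq_right_inv hl hr
  refine ⟨y, ((u⁻¹ : Aˣ) : A) * star y, hyt, ?_, ?_, hl⟩
  · -- `z t = (t + 1) z`
    obtain ⟨z, hz⟩ : ∃ z, z = ((u⁻¹ : Aˣ) : A) * star y := ⟨_, rfl⟩
    rw [← hz] at hl ⊢
    have hyz : y * z = 1 := by rw [hz, hlr]; exact hr
    have h3 : z * (y * t) * z = z * ((t + 1) * y) * z := by rw [hyt]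
    have h4 : z * (y * t) * z = t * z := by
      rw [← mul_assoc z y t, hl, one_mul]
    have h5 : z * ((t + 1) * y) * z = z * t + z := by
      rw [mul_assoc, mul_assoc, hyz, mul_one, mul_add, mul_one]
    rw [h4, h5] at h3
    rw [add_mul, one_mul, h3, add_assoc, ← two_mul, h2A, zero_mul, add_zero]
  · rw [hlr]
    exact hr

/-- The map `(c, d) ↦ c + d y`. -/
noncomputable def cy (h : Dat K A t (algebraMap k K a)) (y : A) : CT h × CT h →ₗ[K] A where
  toFun z := cv h z.1 + cv h z.2 * y
  map_add' z w := by
    rw [Prod.fst_add, Prod.snd_add, map_add, map_add]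
    noncomm_ring
  map_smul' c z := by
    rw [Prod.smul_fst, Prod.smul_snd, Algebra.smul_def, Algebra.smul_def, map_mul, map_mul,
      cv_alg, RingHom.id_apply, Algebra.smul_def, mul_add, mul_assoc]

theorem cy_inj (h : Dat K A t (algebraMap k K a)) {y z : A}
    (hy : y * t = (t + 1) * y) (hyz : y * z = 1) : Function.Injective (cy (k := k) h y) := by
  rw [← LinearMap.ker_eq_bot, LinearMap.ker_eq_bot']
  rintro ⟨c, d⟩ h0
  have h1 : cv h c + cv h d * y = 0 := h0
  have hc := cv_comm h c
  have hd := cv_comm h d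
  have h3 : cv h d * y = (cv h c + cv h d * y) * t - t * (cv h c + cv h d * y) := by
    have e : (cv h c + cv h d * y) * t - t * (cv h c + cv h d * y) =
        (cv h c * t - t * cv h c) + (cv h d * (y * t) - t * cv h d * y) := by noncomm_ring
    rw [e, hc, sub_self, zero_add, hy, ← hd]
    noncomm_ring
  rw [h1, zero_mul, mul_zero, sub_self] at h3
  have hd0 : cv h d = 0 := by
    have h4 : cv h d * y * z = 0 := by rw [h3, zero_mul]
    rwa [mul_assoc, hyz, mul_one] at h4
  rw [h3, add_zero] at h1
  have e1 : c = 0 := cv_inj h (by rw [h1, map_zero])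
  have e2 : d = 0 := cv_inj h (by rw [hd0, map_zero])
  rw [e1, e2]
  rfl

theorem cy_surj (h2 : (2 : k) = 0) (h : Dat K A t (algebraMap k K a)) {y z : A}
    (hz : z * t = (t + 1) * z) (hzy : z * y = 1) :
    Function.Surjective (cy (k := k) h y) := by
  have h2A : (2 : A) = 0 := two_A h2
  intro x
  have hac : ∀ x : A, algebraMap K A (algebraMap k K a) * x =
      x * algebraMap K A (algebraMap k K a) := fun x => Algebra.commutes _ x
  obtain ⟨c, hc⟩ := exists_cv h (ct_comm h2A hac h.eq x)
  have hw := wt_comm h2A hac h.eq x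
  obtain ⟨d, hd⟩ := exists_cv h (wt_mul h2A hw hz)
  refine ⟨(c, d), ?_⟩
  change cv h c + cv h d * y = x
  rw [hc, hd, mul_assoc, hzy, mul_one]
  have e : x + (x * t + t * x) + (x * t + t * x) = x + 2 * (x * t + t * x) := by noncomm_ring
  rw [e, h2A, zero_mul, add_zero]

instance finCT [FiniteDimensional K A] (h : Dat K A t (algebraMap k K a)) :
    FiniteDimensional K (CT h) :=
  inferInstanceAs (FiniteDimensional K (Subalgebra.centralizer K ({t} : Set A)))

instance finFC [FiniteDimensional K A] (h : Dat K A t (algebraMap k K a)) :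
    FiniteDimensional (FL h) (CT h) := Module.Finite.of_restrictScalars_finite K _ _

/-- The algebra is the sum of two copies of the centralizer. -/
theorem finrank_CT (h2 : (2 : k) = 0) (hA : Anis k K A n) (ht : Dat k A t a) (hts : star t = t)
    (ha : ∀ z : k, z * z + z ≠ a) [FiniteDimensional K A] :
    2 * finrank K (CT (dat (K := K) ht)) = finrank K A := by
  obtain ⟨y, z, hy, hz, hyz, hzy⟩ := exists_y h2 hA ht hts ha
  have h1 := (LinearEquiv.ofBijective (cy (k := k) (dat (K := K) ht) y)
    ⟨cy_inj _ hy hyz, cy_surj h2 _ hz hzy⟩).finrank_eq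
  rw [Module.finrank_prod] at h1
  omega

theorem finrank_FC (h2 : (2 : k) = 0) (hA : Anis k K A n) (ht : Dat k A t a) (hts : star t = t)
    (ha : ∀ z : k, z * z + z ≠ a) [FiniteDimensional K A] {m : ℕ} (hn : n = 2 * m) :
    finrank (FL (dat (K := K) ht)) (CT (dat (K := K) ht)) = m ^ 2 := by
  have h1 := finrank_CT (K := K) h2 hA ht hts ha
  have h3 := Module.finrank_mul_finrank K (FL (dat (K := K) ht)) (CT (dat (K := K) ht))
  rw [finrank_FL _ (t_ne hA ht hts ha)] at h3
  rw [hA.finrank_eq, hn] at h1
  have h4 : (2 * m) ^ 2 = 4 * m ^ 2 := by ring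
  omega

/-- The centre of the centralizer is `K(t)`. -/
theorem cen_CT (h2 : (2 : k) = 0) (hA : Anis k K A n) (ht : Dat k A t a) (hts : star t = t)
    (ha : ∀ z : k, z * z + z ≠ a) :
    Algebra.IsCentral (FL (dat (K := K) ht)) (CT (dat (K := K) ht)) := by
  have h2A : (2 : A) = 0 := two_A h2
  obtain ⟨y, z, hy, hz, hyz, hzy⟩ := exists_y h2 hA ht hts ha
  obtain ⟨h, hh⟩ : ∃ h : Dat K A t (algebraMap k K a), h = dat (K := K) ht := ⟨_, rfl⟩
  have hsurj := cy_surj (k := k) h2 h hz hzy
  -- an element commuting with the centralizer and with `y` is in `K`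
  have key : ∀ x : A, (∀ c : CT h, cv h c * x = x * cv h c) → y * x = x * y →
      ∃ c : K, algebraMap K A c = x := by
    intro x hx hxy
    have hcen : x ∈ Subalgebra.center K A := by
      rw [Subalgebra.mem_center_iff]
      intro b
      obtain ⟨⟨c, d⟩, hb⟩ := hsurj b
      have hb' : cv h c + cv h d * y = b := hb
      rw [← hb', add_mul, mul_add, hx c, mul_assoc, hxy, ← mul_assoc, hx d, mul_assoc]
    rw [hA.central.center_eq_bot] at hcen
    obtain ⟨c, hc⟩ := Algebra.mem_bot.mp hcen
    exact ⟨c, hc⟩
  refine ⟨fun x hx => ?_⟩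
  rw [Subalgebra.mem_center_iff] at hx
  obtain ⟨X, hX⟩ : ∃ X, X = cv (dat (K := K) ht) x := ⟨_, rfl⟩
  have hXc : ∀ c : CT h, cv h c * X = X * cv h c := by
    intro c
    subst hh
    rw [hX, ← map_mul, ← map_mul, hx c]
  have hXc' : ∀ b : A, b * t = t * b → b * X = X * b := by
    intro b hb
    obtain ⟨c, hc⟩ := exists_cv h hb
    rw [← hc]
    exact hXc c
  obtain ⟨W, hW⟩ : ∃ W, W = y * X * z := ⟨_, rfl⟩
  -- `X + W` is in `K`
  have hWc : ∀ c : CT h, cv h c * W = W * cv h c := by
    intro c
    have h3 : (z * cv h c * y) * t = t * (z * cv h c * y) := by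
      have hcw : (cv h c * y) * t = (t + 1) * (cv h c * y) := by
        calc cv h c * y * t = cv h c * (y * t) := by rw [mul_assoc]
          _ = (cv h c * t) * y + cv h c * y := by rw [hy]; noncomm_ring
          _ = _ := by rw [cv_comm]; noncomm_ring
      have h5 := wt_mul h2A hz hcw
      rwa [← mul_assoc] at h5
    have h4 := hXc' _ h3
    rw [hW]
    calc cv h c * (y * X * z) = y * z * cv h c * y * X * z := by rw [hyz]; noncomm_ring
      _ = y * ((z * cv h c * y) * X) * z := by noncomm_ring
      _ = y * (X * (z * cv h c * y)) * z := by rw [h4]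
      _ = y * X * z * cv h c * (y * z) := by noncomm_ring
      _ = y * X * z * cv h c := by rw [hyz, mul_one]
  have hyy : (y * y) * X = X * (y * y) := hXc' _ (wt_mul h2A hy hy)
  obtain ⟨u, hu⟩ := key (X + W) (fun c => by rw [mul_add, add_mul, hXc, hWc]) (by
    have e1 : W * y = y * X := by rw [hW, mul_assoc, hzy, mul_one]
    have e2 : y * W = X * y := by
      calc y * W = (y * y) * X * z := by rw [hW]; noncomm_ring
        _ = X * y * (y * z) := by rw [hyy]; noncomm_ring
        _ = X * y := by rw [hyz, mul_one]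
    rw [mul_add, add_mul, e1, e2, add_comm])
  -- `X - u t` is in `K`
  obtain ⟨v, hv⟩ := key (X - algebraMap K A u * t)
    (fun c => by
      have h5 : cv h c * algebraMap K A u = algebraMap K A u * cv h c :=
        (Algebra.commutes _ _).symm
      rw [mul_sub, sub_mul, hXc, ← mul_assoc, h5, mul_assoc, cv_comm, ← mul_assoc])
    (by
      have h5 : y * algebraMap K A u = algebraMap K A u * y := (Algebra.commutes _ _).symm
      have e1 : W * y = y * X := by rw [hW, mul_assoc, hzy, mul_one]
      have e3 : y * X = algebraMap K A u * y - X * y := by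
        rw [← e1, hu]
        noncomm_ring
      rw [mul_sub, ← mul_assoc, h5, mul_assoc, hy, e3, sub_mul]
      have e4 : algebraMap K A u * y - X * y - algebraMap K A u * ((t + 1) * y) -
          (X * y - algebraMap K A u * t * y) = -(2 * (X * y)) := by noncomm_ring
      rw [← sub_eq_zero, e4, h2A, zero_mul, neg_zero])
  have hmem : X ∈ Lt (dat (K := K) ht).eq := ⟨v, u, by rw [hv, sub_add_cancel]⟩
  rw [Algebra.mem_bot]
  exact ⟨⟨X, hmem⟩, cv_inj _ hX⟩

/-- The letters of the centralizer. -/
theorem setG_CT (h2 : (2 : k) = 0) (hA : Anis k K A n) (ht : Dat k A t a) (hts : star t = t)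
    (ha : ∀ z : k, z * z + z ≠ a) [FiniteDimensional K A] :
    letI := starCT (K := K) ht hts
    letI := starFL (K := K) ht hts
    SetG (FL ht) (FL (dat (K := K) ht)) (CT (dat (K := K) ht)) := by
  have := ht.nt
  let i1 := starCT (K := K) ht hts
  let i2 := starFL (K := K) ht hts
  have hnt := t_ne hA ht hts ha
  refine
    { fix := ?_
      star_ne := ?_
      fin := ?_
      cen := ?_
      star_smul := ?_ }
  · intro x
    constructor
    · intro hx
      have hx' : star (fv (dat (K := K) ht) x) = fv (dat (K := K) ht) x :=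
        congrArg (fv (dat (K := K) ht)) hx
      obtain ⟨u, v, huv⟩ := fv_mem (dat (K := K) ht) x
      rw [huv, star_add, star_mul, hts, star_algK, star_algK, ← Algebra.commutes] at hx'
      have h1 : ((star u, star v) : K × K) = (u, v) := lt_inj K hnt hx'
      obtain ⟨u', hu'⟩ := (hA.fixed u).mp (congrArg Prod.fst h1)
      obtain ⟨v', hv'⟩ := (hA.fixed v).mp (congrArg Prod.snd h1)
      obtain ⟨y, hy⟩ := exists_fv ht (x := fv (dat (K := K) ht) x) ⟨u', v', by
        rw [huv, ← hu', ← hv', ← IsScalarTower.algebraMap_apply, ← IsScalarTower.algebraMap_apply]⟩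
      exact ⟨y, fv_inj _ hy⟩
    · rintro ⟨y, rfl⟩
      apply fv_inj
      obtain ⟨u, v, huv⟩ := fv_mem ht y
      change star (fv ht y) = fv ht y
      have e1 : ∀ c : k, star (algebraMap k A c) = algebraMap k A c := fun c => by
        rw [IsScalarTower.algebraMap_apply k K A, star_algK, (hA.fixed _).mpr ⟨c, rfl⟩]
      have c2 : t * algebraMap k A v = algebraMap k A v * t := (Algebra.commutes _ _).symm
      rw [huv, star_add, star_mul, hts, e1, e1, c2]
  · obtain ⟨c, hc⟩ := hA.star_ne
    refine ⟨algebraMap K _ c, fun h0 => hc ?_⟩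
    have h1 : star (algebraMap K A c) = algebraMap K A c := congrArg (fv (dat (K := K) ht)) h0
    rw [star_algK] at h1
    exact (algebraMap K A).injective h1
  · exact finFC _
  · exact cen_CT h2 hA ht hts ha
  · intro x y
    apply cv_inj (dat (K := K) ht)
    have h1 : star (fv (dat (K := K) ht) x * cv (dat (K := K) ht) y) =
        star (fv (dat (K := K) ht) x) * star (cv (dat (K := K) ht) y) := by
      rw [star_mul]
      exact (fv_cv_comm (dat (K := K) ht) (star x) (star y)).symm
    rw [cv_smul]
    refine Eq.trans ?_ h1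
    exact congrArg star (cv_smul (dat (K := K) ht) x y)

/-- **The centralizer of a symmetric Artin-Schreier element**, in a ring. -/
theorem exists_isCent2 [GFF k] (h2 : (2 : k) = 0) (hA : Anis k K A n) {m : ℕ} (hm : 0 < m)
    (hn : n = 2 * m) (hts : star t = t) (htt : t * t + t = algebraMap k A a)
    (ha : ∀ z : k, z * z + z ≠ a) (hdiv : ∀ c : A, c * t = t * c → c ≠ 0 → IsUnit c) :
    ∃ (L : Type) (_ : Field L) (_ : GFF L) (_ : Algebra k L)
      (K' : Type) (_ : Field K') (_ : StarRing K') (_ : GFF K') (_ : Algebra K K')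
      (C : Type) (_ : DivisionRing C) (_ : StarRing C)
      (_ : Algebra L K') (_ : Algebra L C) (_ : Algebra K' C) (_ : IsScalarTower L K' C)
      (T : L) (j : C →+* A),
      SetG L K' C ∧ finrank K' C = m ^ 2 ∧ IsCent2 k K A L K' C t a T j := by
  have := hA.simple
  have hnt : Nontrivial A := inferInstance
  have hfin : FiniteDimensional K A := FiniteDimensional.of_finrank_pos (by
    rw [hA.finrank_eq, hn]
    positivity)
  have ht : Dat k A t a := ⟨hnt, htt, hdiv⟩
  have hq := H519.quad hA.fixed hA.star_ne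
  have i3 : Module.Finite k (FL ht) := inferInstance
  have i4 : GFF (FL ht) := Hey.H63.gff_of_finite (k := k)
  have i7 : Module.Finite k K := hq.1
  have hK : GFF K := Hey.H63.gff_of_finite (k := k)
  have i5 : Module.Finite K (FL (dat (K := K) ht)) := inferInstance
  have i6 : GFF (FL (dat (K := K) ht)) := Hey.H63.gff_of_finite (k := K)
  obtain ⟨T, hT⟩ := exists_fv ht (x := t) ⟨0, 1, by rw [map_zero, map_one, one_mul, zero_add]⟩
  let i8 := starCT (K := K) ht hts
  let i9 := starFL (K := K) ht hts
  refine ⟨FL ht, inferInstance, i4, inferInstance, FL (dat (K := K) ht), inferInstance,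
    starFL (K := K) ht hts, i6, inferInstance, CT (dat (K := K) ht), inferInstance,
    starCT (K := K) ht hts, inferInstance, inferInstance, inferInstance,
    IsScalarTower.of_algebraMap_eq fun _ => rfl,
    T, cv (dat (K := K) ht), setG_CT h2 hA ht hts ha, finrank_FC h2 hA ht hts ha hn, ?_⟩
  refine
    { rkL := finrank_FL ht (t_nek hA ht hts ha)
      rkK := finrank_FL _ (t_ne hA ht hts ha)
      sqT := ?_
      repL := ?_
      repK := ?_
      comp := algLK ht
      inj := cv_inj _
      star := fun x => rfl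
      range := ?_
      jT := hT
      jK := fun _ => rfl }
  · apply fv_inj
    rw [map_add, map_mul, hT]
    exact htt
  · intro l
    obtain ⟨u, v, h⟩ := fv_mem ht l
    refine ⟨u, v, fv_inj _ ?_⟩
    rw [h, map_add, map_mul, hT]
    rfl
  · intro l
    obtain ⟨u, v, h⟩ := fv_mem (dat (K := K) ht) l
    refine ⟨u, v, fv_inj _ ?_⟩
    rw [h, map_add, map_mul, fv_algL, hT]
    rfl
  · intro y
    constructor
    · exact exists_cv _
    · rintro ⟨x, rfl⟩
      exact cv_comm _ x

end ring

section division

variable {k K D : Type} [Field k] [Field K] [StarRing K] [DivisionRing D] [StarRing D]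
    [Algebra k K] [Algebra k D] [Algebra K D] [IsScalarTower k K D] {t : D} {a : k}

/-- **The centralizer of a symmetric Artin-Schreier element**, in a division algebra. -/
theorem exists_isCent2D [GFF k] (h2 : (2 : k) = 0) (hS : SetG k K D) {m : ℕ}
    (hdeg : finrank K D = (2 * m) ^ 2) (hts : star t = t) (htt : t * t + t = algebraMap k D a)
    (ha : ∀ z : k, z * z + z ≠ a) :
    ∃ (L : Type) (_ : Field L) (_ : GFF L) (_ : Algebra k L)
      (K' : Type) (_ : Field K') (_ : StarRing K') (_ : GFF K') (_ : Algebra K K')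
      (C : Type) (_ : DivisionRing C) (_ : StarRing C)
      (_ : Algebra L K') (_ : Algebra L C) (_ : Algebra K' C) (_ : IsScalarTower L K' C)
      (T : L) (j : C →+* D),
      SetG L K' C ∧ finrank K' C = m ^ 2 ∧ IsCent2 k K D L K' C t a T j := by
  have := hS.starModule
  have := hS.fin
  have hm : 0 < m := by
    rcases Nat.eq_zero_or_pos m with h0 | h0
    · rw [h0] at hdeg
      have h1 : 0 < finrank K D := Module.finrank_pos
      rw [hdeg] at h1
      exact absurd h1 (by norm_num)
    · exact h0
  exact exists_isCent2 h2 (hS.anis hdeg) hm rfl hts htt ha fun c _ hc => isUnit_iff_ne_zero.mpr hc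

end division

section roots

variable {k K : Type} [Field k] [Field K] [StarRing K] [Algebra k K]

/-- No roots of `z * z + z = a` in `K`. -/
theorem no_root_K (h2 : (2 : k) = 0) (hfix : ∀ x : K, star x = x ↔ x ∈ Set.range (algebraMap k K))
    {κ : K} (hκ : κ + star κ = 1) {ν : k} (hν : κ * star κ = algebraMap k K ν) {a : k}
    (ha : ∀ z : k, z * z + z ≠ a) (hac : ∀ z : k, z * z + z ≠ a + ν) (z : K) :
    z * z + z ≠ algebraMap k K a := by
  have h2K : (2 : K) = 0 := by rw [← map_ofNat (algebraMap k K) 2, h2, map_zero]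
  intro hz
  have hsa : star (algebraMap k K a) = algebraMap k K a := (hfix _).mpr ⟨a, rfl⟩
  have h3 : star z * star z + star z = algebraMap k K a := by
    rw [← hsa, ← hz, star_add, star_mul]
  have h4 : (star z - z) * (star z - z - 1) = 0 := by
    linear_combination h3 - hz - (star z - z) * h2K * (z) - (star z - z) * h2K
  rcases mul_eq_zero.mp h4 with h5 | h5
  · obtain ⟨c, rfl⟩ := (hfix z).mp (sub_eq_zero.mp h5)
    apply ha c
    apply (algebraMap k K).injective
    rw [← hz, map_add, map_mul]
  · have hs : star z = z + 1 := by linear_combination h5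
    obtain ⟨c, hc⟩ := (hfix (z + κ)).mp (by
      rw [star_add, hs]
      linear_combination hκ + (1 - κ) * h2K)
    apply hac c
    apply (algebraMap k K).injective
    rw [map_add, map_add, map_mul, hc, ← hz, ← hν]
    linear_combination κ * hκ + (z * κ + κ - κ * star κ) * h2K

end roots

end Vale.Agent.P011.H169.C2
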