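import Vale.Agent.P011.H169.C2.Cent
import Vale.Agent.P011.H698.Bd
import Vale.Agent.P011.H73.Sp2

/-!
# Characteristic two: closeness in the centralizer and in the algebra
-/

open Module Polynomial

set_option linter.unusedSectionVars false

namespace Vale.Agent.P011.H169.C2

open Vale.Agent.P011.H738 Vale.Agent.P011.H271 Vale.Agent.P011.H961 Vale.Agent.P011.H698
open Vale.Agent.P011.H73
open Vale.Agent.P011.H271.S3 (Ab)

section lin

variable {k V : Type} [Field k] [AddCommGroup V] [Module k V] {N : ℕ}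

/-- The minimum of finitely many positive numbers. -/
theorem exists_min_pos2 {ι : Type} {S : Set ι} (hS : S.Finite) (δ : ι → ℝ) (hδ : ∀ i, 0 < δ i) :
    ∃ η : ℝ, 0 < η ∧ ∀ i ∈ S, η ≤ δ i := by
  rcases hS.toFinset.eq_empty_or_nonempty with he | hne
  · refine ⟨1, one_pos, fun w hw => ?_⟩
    have : w ∈ hS.toFinset := hS.mem_toFinset.mpr hw
    rw [he] at this
    exact absurd this (Finset.notMem_empty _)
  · exact ⟨hS.toFinset.inf' hne δ, (Finset.lt_inf'_iff _).mpr fun w _ => hδ w,
      fun w hw => Finset.inf'_le _ (hS.mem_toFinset.mpr hw)⟩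

/-- Linear maps to a field above are continuous. -/
theorem near_lin_one2 (B : Basis (Fin N) k V) {L : Type}
    [Field L] [Algebra k L] (Λ : V →ₗ[k] L) {v : Place k} {w : Place L} (hw : Ab w v) {γ : ℝ}
    (hγ : 0 < γ) : ∃ η : ℝ, 0 < η ∧ ∀ x : V, Sm B v η x → w.abv (Λ x) < γ := by
  have key : ∀ i : Fin N, ∃ ε : ℝ, 0 < ε ∧ ∀ c : k, v.abv c < ε → w.abv (c • Λ (B i)) < γ := by
    intro i
    have hp : 0 ≤ w.abv (Λ (B i)) := w.abv.nonneg _
    obtain ⟨δ, hδ, h⟩ := hw.small (ε := γ / (w.abv (Λ (B i)) + 1)) (by positivity)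
    refine ⟨δ, hδ, fun c hc => ?_⟩
    have h1 := h c hc
    rw [lt_div_iff₀ (by positivity)] at h1
    rw [Algebra.smul_def, map_mul]
    refine lt_of_le_of_lt (mul_le_mul_of_nonneg_left ?_ (w.abv.nonneg _)) h1
    linarith
  choose δ hδ0 hδ using key
  obtain ⟨η, hη, hη'⟩ := exists_min_pos2 (Set.finite_univ (α := Fin N)) δ hδ0
  refine ⟨η, hη, fun x hx => ?_⟩
  have h1 : Λ x = ∑ i, B.repr x i • Λ (B i) := by
    conv_lhs => rw [← B.sum_repr x]
    rw [map_sum]
    exact Finset.sum_congr rfl fun i _ => map_smul _ _ _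
  rw [h1]
  refine Sp.sum_lt w _ _ hγ fun i _ => hδ i _ ?_
  exact (hx i).trans_le (hη' i (Set.mem_univ i))

/-- Linear maps to a field above are continuous, all places above at once. -/
theorem near_lin2 (B : Basis (Fin N) k V) {L : Type}
    [Field L] [GFF L] [Algebra k L] (Λ : V →ₗ[k] L) (v : Place k) {γ : Place L → ℝ}
    (hγ : ∀ w, 0 < γ w) : ∃ η : ℝ, 0 < η ∧ ∀ x : V, Sm B v η x → ∀ w : Place L, Ab w v →
      w.abv (Λ x) < γ w := by
  classical
  have key : ∀ w : Place L, ∃ η : ℝ, 0 < η ∧ (Ab w v → ∀ x : V, Sm B v η x →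
      w.abv (Λ x) < γ w) := by
    intro w
    by_cases hw : Ab w v
    · obtain ⟨η, hη, h⟩ := near_lin_one2 B Λ hw (hγ w)
      exact ⟨η, hη, fun _ => h⟩
    · exact ⟨1, one_pos, fun h => absurd h hw⟩
  choose δ hδ0 hδ using key
  obtain ⟨η, hη, hη'⟩ := exists_min_pos2 (Sp.above_finite (E := L) v) δ hδ0
  exact ⟨η, hη, fun x hx w hw => hδ w hw x (hx.mono (hη' w hw))⟩

/-- Quadratic Artin-Schreier extensions are separable. -/
theorem sep_of_as {L : Type} [Field L] [Algebra k L] [FiniteDimensional k L]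
    (h2 : (2 : k) = 0) {a : k} {T : L} (hTT : T * T + T = algebraMap k L a)
    (repL : ∀ l : L, ∃ u v : k, l = algebraMap k L u + algebraMap k L v * T) :
    Algebra.IsSeparable k L := by
  have h1 : IsSeparable k T := by
    have hp : (X ^ 2 + X - C a : k[X]).Separable := by
      rw [separable_def]
      have hd : derivative (X ^ 2 + X - C a : k[X]) = 1 := by
        have h3 : (2 : k[X]) = 0 := by rw [← map_ofNat (C : k →+* k[X]) 2, h2, map_zero]
        rw [derivative_sub, derivative_add, derivative_C, derivative_X, derivative_X_sq, h2,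
          map_zero, zero_mul, zero_add, sub_zero]
      rw [hd]
      exact isCoprime_one_right
    refine Polynomial.Separable.of_dvd hp (minpoly.dvd k T ?_)
    rw [map_sub, map_add, map_pow, aeval_X, aeval_C, sq, hTT, sub_self]
  have h3 : IntermediateField.adjoin k {T} = ⊤ := by
    rw [eq_top_iff]
    intro l _
    obtain ⟨u, v, rfl⟩ := repL l
    exact add_mem (IntermediateField.algebraMap_mem _ u) (mul_mem (IntermediateField.algebraMap_mem _ v)
      (IntermediateField.mem_adjoin_simple_self k T))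
  have h4 : Algebra.IsSeparable k (IntermediateField.adjoin k {T}) :=
    (IntermediateField.isSeparable_adjoin_simple_iff_isSeparable k L).mpr h1
  rw [h3] at h4
  exact Algebra.IsSeparable.of_algHom k (⊤ : IntermediateField k L)
    (IntermediateField.topEquiv (F := k) (E := L)).symm.toAlgHom

end lin

section near

variable {k A : Type} [Field k] [Ring A] [Algebra k A] {N M : ℕ}
  (B : Basis (Fin N) k A) {L C : Type} [Field L] [Algebra k L]
  [DivisionRing C] [Algebra L C] (B' : Basis (Fin M) L C)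

/-- Closeness in `A` implies closeness in `C`. -/
theorem near_down_aux2 [GFF L] (j : C →+* A) (hjinj : Function.Injective j)
    (hj : ∀ c : k, j (algebraMap L C (algebraMap k L c)) = algebraMap k A c)
    (v : Place k) {ε : Place L → ℝ} (hε : ∀ w, 0 < ε w) :
    ∃ η : ℝ, 0 < η ∧ ∀ x : C, Sm B v η (j x) → ∀ w : Place L, Ab w v → Sm B' w (ε w) x := by
  classical
  let algC : Algebra k C := ((algebraMap L C).comp (algebraMap k L)).toAlgebra' fun c x =>
    Algebra.commutes _ _
  have tow : IsScalarTower k L C := IsScalarTower.of_algebraMap_eq fun _ => rfl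
  let jl : C →ₗ[k] A :=
    { toFun := j
      map_add' := map_add j
      map_smul' := fun c x => by
        rw [RingHom.id_apply, Algebra.smul_def, Algebra.smul_def, map_mul]
        exact congrArg (· * j x) (hj c) }
  obtain ⟨r, hr⟩ := jl.exists_leftInverse_of_injective (LinearMap.ker_eq_bot.mpr hjinj)
  have h1 : ∀ i : Fin M, ∃ η : ℝ, 0 < η ∧ ∀ x : A, Sm B v η x →
      ∀ w : Place L, Ab w v → w.abv (((B'.coord i).restrictScalars k).comp r x) < ε w :=
    fun i => near_lin2 B (((B'.coord i).restrictScalars k).comp r) v (γ := ε) hε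
  choose δ hδ0 hδ using h1
  obtain ⟨η, hη, hη'⟩ := exists_min_pos2 (Set.finite_univ (α := Fin M)) δ hδ0
  refine ⟨η, hη, fun x hx w hw i => ?_⟩
  have h3 := hδ i (j x) (hx.mono (hη' i (Set.mem_univ i))) w hw
  have h4 : r (j x) = x := LinearMap.congr_fun hr x
  rw [LinearMap.comp_apply, h4] at h3
  exact h3

/-- Closeness in `C` implies closeness in `A`. -/
theorem near_up_aux2 [GFF k] [GFF L] [FiniteDimensional k L] [Algebra.IsSeparable k L]
    (j : C →+* A)
    (hj : ∀ c : k, j (algebraMap L C (algebraMap k L c)) = algebraMap k A c)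
    (v : Place k) {ε : ℝ} (hε : 0 < ε) :
    ∃ η : ℝ, 0 < η ∧ ∀ x : C, (∀ w : Place L, Ab w v → Sm B' w η x) → Sm B v ε (j x) := by
  classical
  let c := Module.finBasis k L
  have hA : ∀ i : Fin M, ∀ l, ∃ a : ℝ, 1 ≤ a ∧ Bd B v a (j (algebraMap L C (c l) * B' i)) :=
    fun i l => exists_bd _
  choose Q hQ1 hQ using hA
  obtain ⟨R, hR⟩ : ∃ R : ℝ, R = 1 + ∑ i : Fin M, ∑ l, Q i l := ⟨_, rfl⟩
  have hle : ∀ i l, Q i l ≤ R := by
    intro i l
    have h1 : Q i l ≤ ∑ l, Q i l := Finset.single_le_sum (f := fun l => Q i l)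
      (fun _ _ => by linarith [hQ1 i l, hQ1 i ‹_›]) (Finset.mem_univ l)
    have h2 : ∑ l, Q i l ≤ ∑ i : Fin M, ∑ l, Q i l :=
      Finset.single_le_sum (f := fun i => ∑ l, Q i l)
      (fun i _ => Finset.sum_nonneg fun l _ => by linarith [hQ1 i l]) (Finset.mem_univ i)
    linarith
  have hR0 : 0 < R := by
    have : 0 ≤ ∑ i : Fin M, ∑ l, Q i l :=
      Finset.sum_nonneg fun i _ => Finset.sum_nonneg fun l _ => by linarith [hQ1 i l]
    linarith
  obtain ⟨η, hη⟩ := Sp.coord_small (E := L) c v (γ := ε / (2 * R)) (by positivity)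
  obtain ⟨μ, hμ0, hμ⟩ := exists_min_pos2 (Sp.above_finite (E := L) v)
    (fun w => w.abv (algebraMap k L η)) fun w => w.abv.pos (by
      rw [ne_eq, map_eq_zero]
      exact η.ne_zero)
  refine ⟨μ, hμ0, fun x hx => ?_⟩
  have h1 : ∀ i l, v.abv (c.repr (B'.repr x i) l) < ε / (2 * R) := fun i l =>
    hη _ (fun w hw => (hx w hw i).trans_le (hμ w hw)) l
  have h2 : j x = ∑ i, ∑ l, c.repr (B'.repr x i) l • j (algebraMap L C (c l) * B' i) := by
    conv_lhs => rw [← B'.sum_repr x]
    rw [map_sum]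
    refine Finset.sum_congr rfl fun i _ => ?_
    conv_lhs => rw [Algebra.smul_def, ← c.sum_repr (B'.repr x i)]
    rw [map_sum (algebraMap L C), Finset.sum_mul, map_sum j]
    refine Finset.sum_congr rfl fun l _ => ?_
    rw [Algebra.smul_def, map_mul (algebraMap L C), mul_assoc, map_mul j, hj, Algebra.smul_def]
  rw [h2]
  have h3 : Bd B v (ε / 2) (∑ i, ∑ l, c.repr (B'.repr x i) l •
      j (algebraMap L C (c l) * B' i)) := by
    refine Bd.sum (by positivity) _ fun i _ => Bd.sum (by positivity) _ fun l _ => ?_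
    have h4 : Bd B v (ε / (2 * R) * Q i l) (c.repr (B'.repr x i) l •
        j (algebraMap L C (c l) * B' i)) := Bd.smul (h1 i l).le (hQ i l)
    refine h4.mono ?_
    rw [div_mul_eq_mul_div, div_le_div_iff₀ (by positivity) (by norm_num)]
    have h5 := mul_le_mul_of_nonneg_left (hle i l) hε.le
    nlinarith
  exact h3.sm (by linarith)

end near

section wrappers

variable {k K A L K' C : Type} [Field k] [Field K]
  [Ring A] [StarRing A] [Algebra k K] [Algebra k A] [Algebra K A] [IsScalarTower k K A]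
  [Field L] [GFF L] [Algebra k L] [Field K']
  [Algebra K K'] [DivisionRing C] [StarRing C] [Algebra L K'] [Algebra L C]
  [Algebra K' C] [IsScalarTower L K' C] {t : A} {a : k} {T : L} {j : C →+* A}

/-- `k(t)` is separable over `k`. -/
theorem IsCent2.sep (h2 : (2 : k) = 0) (h : IsCent2 k K A L K' C t a T j) :
    Algebra.IsSeparable k L := by
  have : FiniteDimensional k L := Module.finite_of_finrank_pos (by rw [h.rkL]; norm_num)
  exact sep_of_as h2 h.sqT h.repL

/-- **Closeness in the algebra implies closeness in the centralizer.** -/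
theorem near_down2 (h : IsCent2 k K A L K' C t a T j) {N M : ℕ}
    (B : Basis (Fin N) k A) (B' : Basis (Fin M) L C)
    (v : Place k) {ε : Place L → ℝ} (hε : ∀ w, 0 < ε w) :
    ∃ η : ℝ, 0 < η ∧ ∀ x : C, Sm B v η (j x) → ∀ w : Place L, Ab w v → Sm B' w (ε w) x :=
  near_down_aux2 B B' j h.inj h.jk v hε

/-- The same around one, at finitely many places. -/
theorem near_down2_one (h : IsCent2 k K A L K' C t a T j) {N M : ℕ}
    (B : Basis (Fin N) k A) (B' : Basis (Fin M) L C) (S : Finset (Place k)) {ε : ℝ} (hε : 0 < ε) :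
    ∃ η : ℝ, 0 < η ∧ ∀ x : C, (∀ v ∈ S, Sm B v η (j x - 1)) → ∀ v ∈ S, ∀ w : Place L, Ab w v →
      Sm B' w ε (x - 1) := by
  choose δ hδ0 hδ using fun v : Place k => near_down2 h B B' v (ε := fun _ => ε) fun _ => hε
  obtain ⟨η, hη, hη'⟩ := exists_min_pos2 S.finite_toSet δ hδ0
  refine ⟨η, hη, fun x hx v hv w hw => hδ v (x - 1) ?_ w hw⟩
  rw [map_sub, map_one]
  exact (hx v hv).mono (hη' v hv)

/-- **Closeness in the centralizer implies closeness in the algebra.** -/
theorem near_up2 [GFF k] (h2 : (2 : k) = 0) (h : IsCent2 k K A L K' C t a T j) {N M : ℕ}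
    (B : Basis (Fin N) k A) (B' : Basis (Fin M) L C) (v : Place k) {ε : ℝ} (hε : 0 < ε) :
    ∃ η : ℝ, 0 < η ∧ ∀ x : C, (∀ w : Place L, Ab w v → Sm B' w η x) → Sm B v ε (j x) := by
  have : FiniteDimensional k L := Module.finite_of_finrank_pos (by rw [h.rkL]; norm_num)
  have : Algebra.IsSeparable k L := sep_of_as h2 h.sqT h.repL
  exact near_up_aux2 B B' j h.jk v hε

end wrappers

end Vale.Agent.P011.H169.C2
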