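import Vale.Agent.P011.H169.C2.Cent
import Vale.Agent.P011.H268.Nrd
import Vale.Agent.P011.H505.WangB
import Vale.Agent.P011.W.Nrd
import Vale.Agent.P011.W.HermEl
import Vale.Agent.P011.Pow.Kappa

/-!
# Characteristic two: reduced norms in the centralizer of a symmetric Artin-Schreier element
-/

open Module Polynomial

set_option linter.unusedSectionVars false

namespace Vale.Agent.P011.H169.C2

open Vale.Agent.P011.H738 Vale.Agent.P011.H271 Vale.Agent.P011.H961
open Vale.Agent.P011.W (HasNrd exists_maxfield)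
open Vale.Agent.P011.H505.Wang (hasNrd_norm hasNrd_of_det)

section ring

variable {K A Ω : Type} [Field K] [Ring A] [Algebra K A] [Algebra.IsCentral K A] [IsSimpleRing A]
  [Field Ω] [Algebra K Ω] {n : ℕ}

theorem finite_of_sq (hn : 0 < n) (hA : finrank K A = n ^ 2) : FiniteDimensional K A :=
  FiniteDimensional.of_finrank_pos (by rw [hA]; positivity)

/-- The norm of a central simple algebra is a power of the reduced norm. -/
theorem det_pow_ring (hn : 0 < n) (hA : finrank K A = n ^ 2)
    (f : A →ₐ[K] Matrix (Fin n) (Fin n) Ω) (u : A) :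
    (f u).det ^ n = algebraMap K Ω (Algebra.norm K u) := by
  have := finite_of_sq hn hA
  have h1 := H268.charpoly_pow hn hA f u
  obtain ⟨b, hb⟩ : ∃ b, b = (Module.finBasisOfFinrankEq K A hA).reindex
    ((finCongr (sq n)).trans finProdFinEquiv.symm) := ⟨_, rfl⟩
  rw [← hb] at h1
  have h2 := congrArg (fun P => P.eval 0) h1
  simp only [eval_pow, eval_map_algebraMap] at h2
  rw [← coeff_zero_eq_eval_zero, ← coeff_zero_eq_aeval_zero'] at h2
  rw [Algebra.norm_eq_matrix_det b, Matrix.det_eq_sign_charpoly_coeff (Algebra.leftMulMatrix b u),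
    Matrix.det_eq_sign_charpoly_coeff (f u), mul_pow, h2, map_mul, map_pow, map_neg, map_one,
    Fintype.card_fin, Fintype.card_prod, Fintype.card_fin, ← pow_mul]

/-- The norm of an element of a subfield of the right degree. -/
theorem norm_subfield (hn : 0 < n) (hA : finrank K A = n ^ 2) {L : Type} [Field L] [Algebra K L]
    (hL : finrank K L = n) (j : L →ₐ[K] A) (x : L) :
    Algebra.norm K (j x) = Algebra.norm K x ^ n := by
  have := finite_of_sq hn hA
  have hfinL : FiniteDimensional K L := Module.finite_of_finrank_pos (by rw [hL]; exact hn)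
  let _ : Module L A := Module.compHom A (j : L →+* A)
  have hsmul : ∀ (l : L) (x : A), l • x = j l * x := fun _ _ => rfl
  have htower : IsScalarTower K L A := ⟨fun k l x => by
    rw [hsmul, hsmul, map_smul, smul_mul_assoc]⟩
  have hfin : Module.Finite L A := Module.Finite.of_restrictScalars_finite K L A
  have h1 : finrank L A = n := by
    have h1 : finrank K L * finrank L A = finrank K A := Module.finrank_mul_finrank K L A
    rw [hL, hA, sq] at h1
    exact Nat.eq_of_mul_eq_mul_left hn h1
  let b : Basis (Fin n) L A := Module.finBasisOfFinrankEq L A h1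
  let e : A ≃ₗ[K] (Fin n → L) := b.equivFun.restrictScalars K
  have h2 : Algebra.norm K x ^ n = LinearMap.det (LinearMap.pi fun i : Fin n =>
      (LinearMap.mulLeft K x).comp (LinearMap.proj i) : (Fin n → L) →ₗ[K] (Fin n → L)) := by
    rw [LinearMap.det_pi, Finset.prod_const, Finset.card_univ, Fintype.card_fin]
    rfl
  rw [h2, Algebra.norm_apply, ← LinearMap.det_conj (Algebra.lmul K A (j x)) e]
  congr 1
  refine LinearMap.ext fun y => ?_
  change b.equivFun (j x * b.equivFun.symm y) = fun i => x * y i
  rw [← hsmul, map_smul, LinearEquiv.apply_symm_apply]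
  rfl

/-- **The reduced norm on a subfield of the right degree**, for central simple algebras. -/
theorem det_norm_ring [Infinite K] (hn : 0 < n) (hA : finrank K A = n ^ 2) {L : Type} [Field L]
    [Algebra K L] (hL : finrank K L = n) (j : L →ₐ[K] A) (x : L)
    (f : A →ₐ[K] Matrix (Fin n) (Fin n) Ω) :
    (f (j x)).det = algebraMap K Ω (Algebra.norm K x) := by
  have hfinL : FiniteDimensional K L := Module.finite_of_finrank_pos (by rw [hL]; exact hn)
  let b : Basis (Fin n) K L := Module.finBasisOfFinrankEq K L hL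
  obtain ⟨P, hP⟩ : ∃ P, P = (f (j x)).charpoly := ⟨_, rfl⟩
  obtain ⟨Q, hQ⟩ : ∃ Q, Q = (Algebra.leftMulMatrix b x).charpoly.map (algebraMap K Ω) := ⟨_, rfl⟩
  have hPm : P.Monic := by rw [hP]; exact Matrix.charpoly_monic _
  have hQm : Q.Monic := by rw [hQ]; exact (Matrix.charpoly_monic _).map _
  have hev : ∀ c : K, (P ^ n).eval (algebraMap K Ω c) = (Q ^ n).eval (algebraMap K Ω c) := by
    intro c
    have h1 : P.eval (algebraMap K Ω c) = (f (j (algebraMap K L c - x))).det := by
      rw [hP, Matrix.eval_charpoly, map_sub, map_sub, AlgHom.commutes, AlgHom.commutes]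
      rfl
    have h2 : Q.eval (algebraMap K Ω c) =
        algebraMap K Ω (Algebra.norm K (algebraMap K L c - x)) := by
      rw [hQ, eval_map_apply, Matrix.eval_charpoly, Algebra.norm_eq_matrix_det b, map_sub,
        AlgHom.commutes]
      rfl
    rw [eval_pow, eval_pow, h1, h2, det_pow_ring hn hA f, norm_subfield hn hA hL, map_pow]
  have hPQ : P ^ n = Q ^ n := by
    refine Polynomial.eq_of_infinite_eval_eq _ _ ?_
    refine (Set.infinite_range_of_injective (algebraMap K Ω).injective).mono ?_
    rintro _ ⟨c, rfl⟩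
    exact hev c
  have h3 : P = Q := H268.eq_of_monic_pow hPm hQm hn.ne' hPQ
  rw [Matrix.det_eq_sign_charpoly_coeff, ← hP, h3, hQ, coeff_map,
    Algebra.norm_eq_matrix_det b, Matrix.det_eq_sign_charpoly_coeff (Algebra.leftMulMatrix b x)]
  simp only [map_mul, map_pow, map_neg, map_one]

end ring

section nrd

variable {K A K' C : Type} [Field K] [Infinite K] [Ring A] [Algebra K A]
    [Algebra.IsCentral K A] [IsSimpleRing A] [Field K'] [Algebra K K'] [DivisionRing C]
    [Algebra K' C] [FiniteDimensional K' C] [Algebra.IsCentral K' C] {m n : ℕ}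

/-- The reduced norm of an element of a division subalgebra over an extension field. -/
theorem det_cent_ring (hn : 0 < n) (hA : finrank K A = n ^ 2) (hC : finrank K' C = m ^ 2)
    (hKK : finrank K K' * m = n) (j : C →+* A)
    (hj : ∀ c : K, j (algebraMap K' C (algebraMap K K' c)) = algebraMap K A c)
    {Ω : Type} [Field Ω] [Algebra K Ω] (f : A →ₐ[K] Matrix (Fin n) (Fin n) Ω)
    {x : C} {ν : K'} (hx : HasNrd K' m x ν) :
    (f (j x)).det = algebraMap K Ω (Algebra.norm K ν) := by
  have : Infinite K' := Infinite.of_injective _ (algebraMap K K').injective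
  have hm : 0 < m := W.deg_pos hC
  have : FiniteDimensional K K' := Module.finite_of_finrank_pos (by
    rcases Nat.eq_zero_or_pos (finrank K K') with h | h
    · rw [h, zero_mul] at hKK
      omega
    · exact h)
  obtain ⟨E, _, _, _, i, u, hE, rfl⟩ := exists_maxfield hC x
  let _ : Algebra K E := ((algebraMap K' E).comp (algebraMap K K')).toAlgebra
  have : IsScalarTower K K' E := IsScalarTower.of_algebraMap_eq fun _ => rfl
  let i' : E →ₐ[K] A :=
    { j.comp (i : E →+* C) with
      commutes' := fun c => by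
        change j (i (algebraMap K' E (algebraMap K K' c))) = algebraMap K A c
        rw [i.commutes, hj] }
  have h1 : ν = Algebra.norm K' u := W.HasNrd.unique hC hx (hasNrd_norm hC hE i u)
  rw [h1, Algebra.norm_norm]
  have hEK : finrank K E = n := by rw [← Module.finrank_mul_finrank K K' E, hE, hKK]
  exact det_norm_ring hn hA hEK i' u f

/-- Every element has a reduced norm. -/
theorem exists_nrd_div {F : Type} [Field F] [Infinite F] {B : Type} [DivisionRing B] [Algebra F B]
    [FiniteDimensional F B] [Algebra.IsCentral F B] (hB : finrank F B = m ^ 2) (x : B) :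
    ∃ ν : F, HasNrd F m x ν := by
  obtain ⟨E, _, _, _, i, u, hE, rfl⟩ := exists_maxfield hB x
  exact ⟨_, hasNrd_norm hB hE i u⟩

end nrd

section cent

variable {k K A L K' C : Type} [Field k] [Field K] [Ring A] [StarRing A]
    [Algebra k K] [Algebra k A] [Algebra K A] [Field L] [Field K'] [DivisionRing C] [StarRing C]
    [Algebra k L] [Algebra K K'] [Algebra L K'] [Algebra L C] [Algebra K' C]
    {t : A} {a : k} {T : L} {j : C →+* A}
    [Infinite K] [Algebra.IsCentral K A] [IsSimpleRing A] [FiniteDimensional K' C]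
    [Algebra.IsCentral K' C] {m n : ℕ}

variable {Ω : Type} [Field Ω] [Algebra K Ω] (f : A →ₐ[K] Matrix (Fin n) (Fin n) Ω)
    {Ω' : Type} [Field Ω'] [Algebra K' Ω'] (g : C →ₐ[K'] Matrix (Fin m) (Fin m) Ω')

theorem det_hasNrd2 (h : IsCent2 k K A L K' C t a T j) (hm : 0 < m) (hn : n = 2 * m)
    (hA : finrank K A = n ^ 2) (hC : finrank K' C = m ^ 2) {x : C} {ν : K'}
    (hx : HasNrd K' m x ν) : (f (j x)).det = algebraMap K Ω (Algebra.norm K ν) :=
  det_cent_ring (by omega) hA hC (by rw [h.rkK, hn]) j h.jK f hx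

/-- **The determinant form.** -/
theorem det_cent2 (h : IsCent2 k K A L K' C t a T j) (hm : 0 < m) (hn : n = 2 * m)
    (hA : finrank K A = n ^ 2) (hC : finrank K' C = m ^ 2) {x : C} {ν : K'}
    (hx : (g x).det = algebraMap K' Ω' ν) :
    (f (j x)).det = algebraMap K Ω (Algebra.norm K ν) := by
  have : Infinite K' := Infinite.of_injective _ (algebraMap K K').injective
  exact det_hasNrd2 f h hm hn hA hC (hasNrd_of_det hC g hx)

theorem det_cent2_one (h : IsCent2 k K A L K' C t a T j) (hm : 0 < m) (hn : n = 2 * m)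
    (hA : finrank K A = n ^ 2) (hC : finrank K' C = m ^ 2) {x : C}
    (hx : (g x).det = 1) : (f (j x)).det = 1 := by
  have h1 := det_cent2 f g h hm hn hA hC (x := x) (ν := 1) (by rw [hx, map_one])
  rwa [map_one, map_one] at h1

theorem mem_SUA2 (h : IsCent2 k K A L K' C t a T j) (hm : 0 < m) (hn : n = 2 * m)
    (hA : finrank K A = n ^ 2) (hC : finrank K' C = m ^ 2) {x : Cˣ} (hx : x ∈ SUA g) :
    Units.map (j : C →* A) x ∈ SUA f := by
  obtain ⟨h1, h2⟩ := hx
  refine ⟨?_, det_cent2_one f g h hm hn hA hC h2⟩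
  change j (x : C) * star (j (x : C)) = 1
  rw [← h.star, ← map_mul, h1, map_one]

/-- The homomorphism of the special unitary groups. -/
def resA2 (h : IsCent2 k K A L K' C t a T j) (hm : 0 < m) (hn : n = 2 * m)
    (hA : finrank K A = n ^ 2) (hC : finrank K' C = m ^ 2) : SUA g →* SUA f :=
  ((Units.map (j : C →* A)).comp (SUA g).subtype).codRestrict _ fun x =>
    mem_SUA2 f g h hm hn hA hC x.2

theorem resA2_val (h : IsCent2 k K A L K' C t a T j) (hm : 0 < m) (hn : n = 2 * m)
    (hA : finrank K A = n ^ 2) (hC : finrank K' C = m ^ 2) (x : SUA g) :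
    (((resA2 f g h hm hn hA hC x : SUA f) : Aˣ) : A) = j ((x : Cˣ) : C) := rfl

/-- The set of the elements of a subgroup. -/
def ImR {f : A →ₐ[K] Matrix (Fin n) (Fin n) Ω} (N : Subgroup (SUA f)) : Set A :=
  {x | ∃ g ∈ N, (((g : SUA f) : Aˣ) : A) = x}

/-- **The trace of a normal subgroup of finite index on the centralizer.** -/
theorem exists_trace2 (h : IsCent2 k K A L K' C t a T j) (hm : 0 < m) (hn : n = 2 * m)
    (hA : finrank K A = n ^ 2) (hC : finrank K' C = m ^ 2) (N : Subgroup (SUA f))
    [hN : N.Normal] (hi : N.index ≠ 0) :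
    ∃ N' : Subgroup (SUA g), N'.Normal ∧ N'.index ≠ 0 ∧
      (∀ x : SUA g, x ∈ N' ↔ resA2 f g h hm hn hA hC x ∈ N) ∧
      ∀ x : C, x ∈ ImR N' ↔ x * star x = 1 ∧ (g x).det = 1 ∧ j x ∈ ImR N := by
  refine ⟨N.comap (resA2 f g h hm hn hA hC), inferInstance, ?_, fun x => Iff.rfl, ?_⟩
  · rw [Subgroup.index_comap]
    exact ne_zero_of_dvd_ne_zero hi (Subgroup.relIndex_dvd_index_of_normal _ _)
  · intro x
    constructor
    · rintro ⟨y, hy, rfl⟩
      exact ⟨y.2.1, y.2.2, _, hy, rfl⟩
    · rintro ⟨hx1, hx2, y, hy, hxy⟩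
      have hx0 : x ≠ 0 := by
        rintro rfl
        rw [zero_mul] at hx1
        exact zero_ne_one hx1
      refine ⟨⟨Units.mk0 x hx0, hx1, hx2⟩, ?_, rfl⟩
      change resA2 f g h hm hn hA hC _ ∈ N
      have h1 : resA2 f g h hm hn hA hC ⟨Units.mk0 x hx0, hx1, hx2⟩ = y :=
        Subtype.ext (Units.ext hxy.symm)
      rw [h1]
      exact hy

end cent

section norm

variable {K K' : Type} [Field K] [Field K'] [Algebra K K']

/-- The norm of a quadratic Artin-Schreier extension. -/
theorem norm_quad2 (h2 : (2 : K) = 0) (hr : finrank K K' = 2) {T : K'} {a : K}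
    (hT : T * T + T = algebraMap K K' a)
    (rep : ∀ l : K', ∃ u v : K, l = algebraMap K K' u + algebraMap K K' v * T) (x y : K) :
    Algebra.norm K (algebraMap K K' x + algebraMap K K' y * T) = x ^ 2 + x * y + a * y ^ 2 := by
  have h2' : (2 : K') = 0 := by rw [← map_ofNat (algebraMap K K') 2, h2, map_zero]
  have hfin : FiniteDimensional K K' := Module.finite_of_finrank_pos (by rw [hr]; norm_num)
  let v : Fin 2 → K' := ![1, T]
  have hspan : ⊤ ≤ Submodule.span K (Set.range v) := by
    intro l _
    obtain ⟨p, q, rfl⟩ := rep l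
    have e1 : algebraMap K K' p = p • v 0 := by
      rw [Algebra.algebraMap_eq_smul_one]; rfl
    have e2 : algebraMap K K' q * T = q • v 1 := by
      rw [Algebra.smul_def]; rfl
    rw [e1, e2]
    exact add_mem (Submodule.smul_mem _ _ (Submodule.subset_span ⟨0, rfl⟩))
      (Submodule.smul_mem _ _ (Submodule.subset_span ⟨1, rfl⟩))
  have hli : LinearIndependent K v :=
    linearIndependent_of_top_le_span_of_card_eq_finrank hspan (by rw [hr, Fintype.card_fin])
  let b : Basis (Fin 2) K K' := Basis.mk hli hspan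
  have hb0 : b 0 = 1 := by rw [Basis.mk_apply]; rfl
  have hb1 : b 1 = T := by rw [Basis.mk_apply]; rfl
  have hrep : ∀ p q : K, b.repr (algebraMap K K' p + algebraMap K K' q * T) 0 = p ∧
      b.repr (algebraMap K K' p + algebraMap K K' q * T) 1 = q := by
    intro p q
    have e : algebraMap K K' p + algebraMap K K' q * T = p • b 0 + q • b 1 := by
      rw [hb0, hb1, Algebra.smul_def, Algebra.smul_def, mul_one]
    rw [e, map_add, map_smul, map_smul, Basis.repr_self, Basis.repr_self]
    constructor
    · simp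
    · simp
  rw [Algebra.norm_eq_matrix_det b, Matrix.det_fin_two]
  have e0 : (algebraMap K K' x + algebraMap K K' y * T) * b 0 =
      algebraMap K K' x + algebraMap K K' y * T := by rw [hb0, mul_one]
  have e1 : (algebraMap K K' x + algebraMap K K' y * T) * b 1 =
      algebraMap K K' (a * y) + algebraMap K K' (x + y) * T := by
    rw [hb1, map_mul, map_add]
    linear_combination (algebraMap K K' y) * hT - (algebraMap K K' y) * T * h2'
  rw [Algebra.leftMulMatrix_eq_repr_mul, Algebra.leftMulMatrix_eq_repr_mul,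
    Algebra.leftMulMatrix_eq_repr_mul, Algebra.leftMulMatrix_eq_repr_mul, e0, e1,
    (hrep _ _).1, (hrep _ _).1, (hrep _ _).2, (hrep _ _).2]
  linear_combination -(a * y ^ 2) * h2

end norm

end Vale.Agent.P011.H169.C2
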