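import Vale.Agent.P011.H169.C2.CentNrd
import Vale.Agent.P011.H698.Bd

/-!
# Characteristic two: the reduced norms of unitary elements of the centralizer
-/

open Module Polynomial

set_option linter.unusedSectionVars false

namespace Vale.Agent.P011.H169.C2

open Vale.Agent.P011.H738 Vale.Agent.P011.H271 Vale.Agent.P011.H961 Vale.Agent.P011.H698
open Vale.Agent.P011.W (HasNrd exists_maxfield)
open Vale.Agent.P011.H505.Wang (hasNrd_norm hasNrd_of_det)

/-- The element `κ + T`. -/
def om2 {K L : Type} (K' : Type) [Field K] [Field L] [Field K'] [Algebra K K'] [Algebra L K']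
    (κ : K) (T : L) : K' := algebraMap K K' κ + algebraMap L K' T

section quad

variable {K K' : Type} [Field K] [Field K'] [Algebra K K']

/-- Coordinates in a quadratic extension. -/
theorem rep_inj (hr : finrank K K' = 2) {T : K'}
    (rep : ∀ l : K', ∃ u v : K, l = algebraMap K K' u + algebraMap K K' v * T) {x y x' y' : K}
    (h : algebraMap K K' x + algebraMap K K' y * T =
      algebraMap K K' x' + algebraMap K K' y' * T) : x = x' ∧ y = y' := by
  let v : Fin 2 → K' := ![1, T]
  have e1 : ∀ p : K, algebraMap K K' p = p • v 0 := fun p => by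
    rw [Algebra.algebraMap_eq_smul_one]; rfl
  have e2 : ∀ q : K, algebraMap K K' q * T = q • v 1 := fun q => by
    rw [Algebra.smul_def]; rfl
  have hspan : ⊤ ≤ Submodule.span K (Set.range v) := by
    intro l _
    obtain ⟨p, q, rfl⟩ := rep l
    rw [e1, e2]
    exact add_mem (Submodule.smul_mem _ _ (Submodule.subset_span ⟨0, rfl⟩))
      (Submodule.smul_mem _ _ (Submodule.subset_span ⟨1, rfl⟩))
  have hli : LinearIndependent K v :=
    linearIndependent_of_top_le_span_of_card_eq_finrank hspan (by rw [hr, Fintype.card_fin])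
  rw [Fintype.linearIndependent_iff] at hli
  have h1 := hli ![x - x', y - y'] (by
    rw [Fin.sum_univ_two]
    change (x - x') • v 0 + (y - y') • v 1 = 0
    rw [sub_smul, sub_smul, ← e1, ← e1, ← e2, ← e2]
    linear_combination h)
  exact ⟨sub_eq_zero.mp (h1 0), sub_eq_zero.mp (h1 1)⟩

end quad

section main

variable {k K A L K' C : Type} [Field k] [Field K] [StarRing K]
    [Ring A] [StarRing A] [Algebra k K] [Algebra k A] [Algebra K A] [IsScalarTower k K A]
    [StarModule K A] [Field L] [Algebra k L] [Field K'] [StarRing K']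
    [Algebra K K'] [DivisionRing C] [StarRing C] [Algebra L K'] [Algebra L C] [Algebra K' C]
    [IsScalarTower L K' C] {t : A} {a : k} {T : L} {j : C →+* A}

theorem star_kk2 (hSC : SetG L K' C) (h : IsCent2 k K A L K' C t a T j) (c : k) :
    star (algebraMap K K' (algebraMap k K c)) = algebraMap K K' (algebraMap k K c) := by
  rw [hSC.fix, h.comp]
  exact ⟨_, rfl⟩

theorem TT2 (h : IsCent2 k K A L K' C t a T j) :
    algebraMap L K' T * algebraMap L K' T + algebraMap L K' T =
      algebraMap K K' (algebraMap k K a) := by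
  rw [← map_mul, ← map_add, h.sqT, h.comp]

theorem om2_sq (h2 : (2 : k) = 0) (h : IsCent2 k K A L K' C t a T j) {κ : K} {ν : k}
    (hκ : κ + star κ = 1) (hν : κ * star κ = algebraMap k K ν) :
    om2 K' κ T * om2 K' κ T + om2 K' κ T = algebraMap K K' (algebraMap k K (a + ν)) := by
  have h2K : (2 : K) = 0 := by rw [← map_ofNat (algebraMap k K) 2, h2, map_zero]
  have h2K' : (2 : K') = 0 := by rw [← map_ofNat (algebraMap K K') 2, h2K, map_zero]
  have e1 : algebraMap K K' κ * algebraMap K K' κ + algebraMap K K' κ =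
      algebraMap K K' (algebraMap k K ν) := by
    rw [← map_mul, ← map_add, ← hν]
    congr 1
    linear_combination κ * hκ + (κ - κ * star κ) * h2K
  rw [om2, map_add, map_add, ← e1, ← TT2 h]
  linear_combination (algebraMap K K' κ * algebraMap L K' T) * h2K'

theorem star_om2 (hSC : SetG L K' C) (h : IsCent2 k K A L K' C t a T j) {κ : K}
    (hκ : κ + star κ = 1) (h2 : (2 : k) = 0) : star (om2 K' κ T) = om2 K' κ T + 1 := by
  have h2K : (2 : K) = 0 := by rw [← map_ofNat (algebraMap k K) 2, h2, map_zero]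
  have h2K' : (2 : K') = 0 := by rw [← map_ofNat (algebraMap K K') 2, h2K, map_zero]
  rw [om2, star_add, starK2 hSC h, starT2 hSC]
  have e : star κ = 1 - κ := by linear_combination hκ
  rw [e, map_sub, map_one]
  linear_combination -(algebraMap K K' κ) * h2K'

/-- **The reduced norms of the unitary elements of the centralizer.** -/
theorem exists_pu2 [Infinite K] [Algebra.IsCentral K A] [IsSimpleRing A] (h2 : (2 : k) = 0)
    (hfix : ∀ x : K, star x = x ↔ x ∈ Set.range (algebraMap k K)) (hSC : SetG L K' C)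
    (h : IsCent2 k K A L K' C t a T j) {n m : ℕ} (hm : 0 < m) (hn : n = 2 * m)
    (hA : finrank K A = n ^ 2) (hC : finrank K' C = m ^ 2) {Ω : Type} [Field Ω] [Algebra K Ω]
    (f : A →ₐ[K] Matrix (Fin n) (Fin n) Ω) {κ : K} {ν : k}
    (hκ : κ + star κ = 1) (hν : κ * star κ = algebraMap k K ν) {e : C} (he : e * star e = 1)
    (hdet : (f (j e)).det = 1) :
    ∃ p u : k, HasNrd K' m e (algebraMap K K' (algebraMap k K p) +
        algebraMap K K' (algebraMap k K u) * om2 K' κ T) ∧
      p ^ 2 + p * u + (a + ν) * u ^ 2 = 1 := by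
  have h2K : (2 : K) = 0 := by rw [← map_ofNat (algebraMap k K) 2, h2, map_zero]
  have h2K' : (2 : K') = 0 := by rw [← map_ofNat (algebraMap K K') 2, h2K, map_zero]
  have := hSC.fin
  have := hSC.cen
  have : Infinite K' := Infinite.of_injective _ (algebraMap K K').injective
  obtain ⟨μ, hμ⟩ := exists_nrd_div (F := K') hC e
  have hnorm : Algebra.norm K μ = 1 := by
    apply (algebraMap K Ω).injective
    rw [map_one, ← hdet]
    exact (det_hasNrd2 f h hm hn hA hC hμ).symm
  have hstar : μ * star μ = 1 := by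
    have h1 : HasNrd K' m (star e) (star μ) := W.HasNrd.star (fun c => hSC.star_algebraMapD c) hμ
    have h3 := W.HasNrd.mul hμ h1
    rw [he] at h3
    have h4 : HasNrd K' m (1 : C) 1 := fun Ω _ _ f => by rw [map_one, map_one, Matrix.det_one]
    exact W.HasNrd.unique hC h3 h4
  obtain ⟨x, y, hxy⟩ := h.repK μ
  have hTT := TT2 h
  have hN := norm_quad2 h2K h.rkK hTT h.repK x y
  rw [← hxy, hnorm] at hN
  have hN' : algebraMap K K' x ^ 2 + algebraMap K K' x * algebraMap K K' y +
      algebraMap K K' (algebraMap k K a) * algebraMap K K' y ^ 2 = 1 := by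
    rw [← map_pow, ← map_pow, ← map_mul, ← map_mul, ← map_add, ← map_add, ← hN, map_one]
  have hμμ : μ * (algebraMap K K' (x + y) + algebraMap K K' y * algebraMap L K' T) = 1 := by
    rw [hxy, map_add]
    linear_combination hN' + (algebraMap K K' y) ^ 2 * hTT +
      (algebraMap K K' x * algebraMap K K' y * algebraMap L K' T) * h2K'
  have hμ0 : μ ≠ 0 := left_ne_zero_of_mul_eq_one hstar
  have hst : star μ = algebraMap K K' (x + y) + algebraMap K K' y * algebraMap L K' T :=
    mul_left_cancel₀ hμ0 (hstar.trans hμμ.symm)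
  rw [hxy, star_add, star_mul, starK2 hSC h, starK2 hSC h, starT2 hSC, mul_comm] at hst
  obtain ⟨e1, e2⟩ := rep_inj h.rkK h.repK hst
  obtain ⟨u, hu⟩ := (hfix y).mp e2
  obtain ⟨p, hp⟩ := (hfix (x + y * κ)).mp (by
    rw [star_add, star_mul', e1, e2]
    linear_combination y * hκ + (y - y * κ) * h2K)
  have hx : x = algebraMap k K p + algebraMap k K u * κ := by
    rw [hp, hu]
    linear_combination -(y * κ) * h2K
  refine ⟨p, u, ?_, ?_⟩
  · have e3 : μ = algebraMap K K' (algebraMap k K p) +
        algebraMap K K' (algebraMap k K u) * om2 K' κ T := by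
      rw [hxy, hx, ← hu, om2, map_add, map_mul]
      ring
    rw [← e3]
    exact hμ
  · apply (algebraMap k K).injective
    rw [map_one, hN, hx, ← hu]
    simp only [map_add, map_mul, map_pow]
    rw [← hν]
    linear_combination -(algebraMap k K u ^ 2 * κ) * hκ +
      (algebraMap k K u ^ 2 * κ * star κ - algebraMap k K p * algebraMap k K u * κ -
        algebraMap k K u ^ 2 * κ) * h2K

/-- Continuity of the determinant at a point. -/
theorem det_near2 {k V : Type} [Field k] [AddCommGroup V] [Module k V] {N n : ℕ}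
    (B : Basis (Fin N) k V) {Ω : Type} [Field Ω] [Algebra k Ω]
    (G : V →ₗ[k] Matrix (Fin n) (Fin n) Ω) (Λ : Ω →ₗ[k] k) (A : AbsoluteValue k ℝ) (x₀ : V)
    {ε : ℝ} (hε : 0 < ε) : ∃ η : ℝ, 0 < η ∧ ∀ x : V, (∀ i, A (B.repr (x - x₀) i) < η) →
      A (Λ (G x).det - Λ (G x₀).det) < ε := by
  have hG : ∀ x : V, G x = ∑ j, B.repr x j • G (B j) := by
    intro x
    conv_lhs => rw [← B.sum_repr x]
    rw [map_sum]
    exact Finset.sum_congr rfl fun j _ => map_smul _ _ _
  have hc := @Pow.cont_det k Ω A.toNormedField _ _ Λ n N fun j => G (B j)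
  let _ : NormedField k := A.toNormedField
  have hc' := (Metric.continuous_iff.mp hc) (fun j => B.repr x₀ j) ε hε
  obtain ⟨η, hη, h⟩ := hc'
  refine ⟨η, hη, fun x hx => ?_⟩
  have h1 := h (fun j => B.repr x j) ?_
  · rw [hG x, hG x₀]
    rw [dist_eq_norm] at h1
    exact h1
  · rw [dist_pi_lt_iff hη]
    intro j
    rw [dist_eq_norm]
    have h2 := hx j
    simp only [map_sub, Finsupp.sub_apply] at h2
    exact h2

/-- **The coordinates of the reduced norm are close to those of one.** -/
theorem pu_near2 [Infinite K] (hSC : SetG L K' C)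
    (h : IsCent2 k K A L K' C t a T j) {m N : ℕ} (hC : finrank K' C = m ^ 2) (κ : K)
    (B : Basis (Fin N) k A) (v : Place k) {ε : ℝ} (hε : 0 < ε) :
    ∃ η : ℝ, 0 < η ∧ ∀ (e : C) (p u : k),
      HasNrd K' m e (algebraMap K K' (algebraMap k K p) +
        algebraMap K K' (algebraMap k K u) * om2 K' κ T) →
      Sm B v η (j e - 1) → v.abv (p - 1) < ε ∧ v.abv u < ε := by
  have := hSC.fin
  have := hSC.cen
  obtain ⟨g⟩ := Vale.Agent.P011S.exists_split (K := K') (D := C) hC (AlgebraicClosure K')
  let φ : k →+* K' := (algebraMap K K').comp (algebraMap k K)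
  have hφ : ∀ c : k, φ c = algebraMap K K' (algebraMap k K c) := fun _ => rfl
  let algK : Algebra k K' := φ.toAlgebra
  let algC : Algebra k C := ((algebraMap K' C).comp φ).toAlgebra' fun c x =>
    Algebra.commutes _ _
  have tow : IsScalarTower k K' (AlgebraicClosure K') := inferInstance
  have hck : ∀ c : k, j (algebraMap K' C (φ c)) = algebraMap k A c := fun c => by
    rw [IsScalarTower.algebraMap_apply k K A]
    exact h.jK _
  let jl : C →ₗ[k] A :=
    { toFun := j
      map_add' := map_add j
      map_smul' := fun c x => by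
        rw [RingHom.id_apply, Algebra.smul_def, Algebra.smul_def, map_mul]
        exact congrArg (· * j x) (hck c) }
  obtain ⟨r, hr⟩ := jl.exists_leftInverse_of_injective (LinearMap.ker_eq_bot.mpr h.inj)
  have hr' : ∀ x : C, r (j x) = x := fun x => LinearMap.congr_fun hr x
  let gl : C →ₗ[k] Matrix (Fin m) (Fin m) (AlgebraicClosure K') :=
    { toFun := g
      map_add' := map_add g
      map_smul' := fun c x => by
        rw [RingHom.id_apply, Algebra.smul_def, map_mul]
        change g (algebraMap K' C (φ c)) * g x = _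
        rw [AlgHom.commutes, ← Algebra.smul_def]
        ext i l
        rw [Matrix.smul_apply, Matrix.smul_apply, Algebra.smul_def, Algebra.smul_def,
          IsScalarTower.algebraMap_apply k K' (AlgebraicClosure K')]
        rfl }
  let il : k × k →ₗ[k] K' :=
    { toFun := fun x => φ x.1 + φ x.2 * om2 K' κ T
      map_add' := fun x y => by
        rw [Prod.fst_add, Prod.snd_add, map_add, map_add]; ring
      map_smul' := fun c x => by
        rw [Prod.smul_fst, Prod.smul_snd, smul_eq_mul, smul_eq_mul, map_mul, map_mul,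
          RingHom.id_apply, Algebra.smul_def]
        change _ = φ c * _
        ring }
  have hker : LinearMap.ker il = ⊥ := by
    rw [LinearMap.ker_eq_bot']
    rintro ⟨x, y⟩ hxy
    have h1 : φ x + φ y * om2 K' κ T = 0 := hxy
    have h3 : algebraMap K K' (algebraMap k K x + algebraMap k K y * κ) +
        algebraMap K K' (algebraMap k K y) * algebraMap L K' T =
        algebraMap K K' 0 + algebraMap K K' 0 * algebraMap L K' T := by
      rw [map_zero, zero_mul, add_zero, ← h1, hφ, hφ, om2, map_add, map_mul]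
      ring
    obtain ⟨e1, e2⟩ := rep_inj h.rkK h.repK h3
    have hy : y = 0 := (_root_.map_eq_zero _).mp e2
    rw [hy, map_zero, zero_mul, add_zero] at e1
    have hx : x = 0 := (_root_.map_eq_zero _).mp e1
    rw [hx, hy]
    rfl
  obtain ⟨r2, hr2⟩ := il.exists_leftInverse_of_injective hker
  have hr2' : ∀ p u : k, r2 (φ p + φ u * om2 K' κ T) = (p, u) := fun p u =>
    LinearMap.congr_fun hr2 (p, u)
  obtain ⟨ρ, hρ'⟩ := (Algebra.linearMap K' (AlgebraicClosure K')).exists_leftInverse_of_injective
    (LinearMap.ker_eq_bot.mpr (algebraMap K' (AlgebraicClosure K')).injective)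
  have hρ : ∀ c, ρ (algebraMap K' (AlgebraicClosure K') c) = c := fun c =>
    LinearMap.congr_fun hρ' c
  let Λ : AlgebraicClosure K' →ₗ[k] k × k := r2.comp (ρ.restrictScalars k)
  have hΛ : ∀ p u : k, Λ (algebraMap K' (AlgebraicClosure K')
      (φ p + φ u * om2 K' κ T)) = (p, u) := fun p u => by
    change r2 (ρ _) = _
    rw [hρ, hr2']
  obtain ⟨η₁, hη₁, H1⟩ := det_near2 B (gl.comp r) ((LinearMap.fst k k k).comp Λ) v.abv 1 hε
  obtain ⟨η₂, hη₂, H2⟩ := det_near2 B (gl.comp r) ((LinearMap.snd k k k).comp Λ) v.abv 1 hε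
  refine ⟨min η₁ η₂, lt_min hη₁ hη₂, fun e p u hν hne => ?_⟩
  have e1 : ((gl.comp r) (j e)).det = algebraMap K' (AlgebraicClosure K')
      (φ p + φ u * om2 K' κ T) := by
    change (g (r (j e))).det = _
    rw [hr', hν _ g]
    rfl
  have e2 : ((gl.comp r) 1).det = algebraMap K' (AlgebraicClosure K')
      (φ 1 + φ 0 * om2 K' κ T) := by
    change (g (r 1)).det = _
    rw [← map_one j, hr', map_one, Matrix.det_one, map_one, map_zero, zero_mul, add_zero, map_one]
  have h1 := H1 _ (fun i => (hne i).trans_le (min_le_left _ _))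
  have h2 := H2 _ (fun i => (hne i).trans_le (min_le_right _ _))
  have f1 : ∀ z, ((LinearMap.fst k k k).comp Λ) z = (Λ z).1 := fun _ => rfl
  have f2 : ∀ z, ((LinearMap.snd k k k).comp Λ) z = (Λ z).2 := fun _ => rfl
  rw [e1, e2, f1, f1, hΛ, hΛ] at h1
  rw [e1, e2, f2, f2, hΛ, hΛ] at h2
  refine ⟨h1, ?_⟩
  have h3 : ((p, u) : k × k).2 - ((1, 0) : k × k).2 = u := sub_zero u
  rwa [h3] at h2

end main

end Vale.Agent.P011.H169.C2
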