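import Mathlib

/-!
# The centralizer of an Artin-Schreier element

`A` is a ring with an algebra structure over a field `R`, and `t * t + t = a` with `a` in `R`. If
the nonzero elements commuting with `t` are units, then they form a division ring, and `R + R t`
is a field.
-/

open Module

set_option linter.unusedSectionVars false

namespace Vale.Agent.P011.H169.C2

section lin

variable (R : Type) {A : Type} [Field R] [Ring A] [Algebra R A]

/-- The map `(u, v) ↦ u + v t`. -/
noncomputable def lt (t : A) : R × R →ₗ[R] A :=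
  (Algebra.linearMap R A).comp (LinearMap.fst R R R) +
    ((LinearMap.mulRight R t).comp (Algebra.linearMap R A)).comp (LinearMap.snd R R R)

theorem lt_apply (t : A) (z : R × R) :
    lt R t z = algebraMap R A z.1 + algebraMap R A z.2 * t := rfl

theorem lt_inj [Nontrivial A] {t : A} (hnt : ∀ c : R, algebraMap R A c ≠ t) :
    Function.Injective (lt R t) := by
  rw [← LinearMap.ker_eq_bot, LinearMap.ker_eq_bot']
  rintro ⟨u, v⟩ h
  rw [lt_apply] at h
  change algebraMap R A u + algebraMap R A v * t = 0 at h
  have hv : v = 0 := by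
    by_contra hv
    apply hnt (-(v⁻¹ * u))
    have h1 : algebraMap R A v⁻¹ * (algebraMap R A u + algebraMap R A v * t) = 0 := by
      rw [h, mul_zero]
    rw [mul_add, ← mul_assoc, ← map_mul, ← map_mul, inv_mul_cancel₀ hv, map_one, one_mul] at h1
    rw [map_neg, neg_eq_iff_add_eq_zero, h1]
  rw [hv, map_zero, zero_mul, add_zero] at h
  have hu : u = 0 := (algebraMap R A).injective (by rw [h, map_zero])
  rw [hu, hv]
  rfl

end lin

section sub

variable {R A : Type} [Field R] [Ring A] [Algebra R A] {t : A} {a : R}

/-- The subalgebra `R + R t`. -/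
def Lt (ht : t * t + t = algebraMap R A a) : Subalgebra R A where
  carrier := {x | ∃ u v : R, x = algebraMap R A u + algebraMap R A v * t}
  mul_mem' := by
    rintro _ _ ⟨u, v, rfl⟩ ⟨u', v', rfl⟩
    refine ⟨u * u' + v * v' * a, u * v' + v * u' - v * v', ?_⟩
    have c1 : t * algebraMap R A u' = algebraMap R A u' * t := (Algebra.commutes _ _).symm
    have c2 : t * algebraMap R A v' = algebraMap R A v' * t := (Algebra.commutes _ _).symm
    have htt : t * t = algebraMap R A a - t := by rw [← ht, add_sub_cancel_right]
    rw [map_add, map_mul, map_mul, map_mul, map_sub, map_add, map_mul, map_mul, map_mul]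
    calc (algebraMap R A u + algebraMap R A v * t) * (algebraMap R A u' + algebraMap R A v' * t)
        = algebraMap R A u * algebraMap R A u' + algebraMap R A u * algebraMap R A v' * t +
          algebraMap R A v * (t * algebraMap R A u') +
          algebraMap R A v * (t * algebraMap R A v') * t := by noncomm_ring
      _ = algebraMap R A u * algebraMap R A u' + algebraMap R A u * algebraMap R A v' * t +
          algebraMap R A v * algebraMap R A u' * t +
          algebraMap R A v * algebraMap R A v' * (t * t) := by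
          rw [c1, c2]; noncomm_ring
      _ = _ := by rw [htt]; noncomm_ring
  add_mem' := by
    rintro _ _ ⟨u, v, rfl⟩ ⟨u', v', rfl⟩
    exact ⟨u + u', v + v', by rw [map_add, map_add]; noncomm_ring⟩
  algebraMap_mem' c := ⟨c, 0, by rw [map_zero, zero_mul, add_zero]⟩

theorem mem_Lt (ht : t * t + t = algebraMap R A a) {x : A} :
    x ∈ Lt ht ↔ ∃ u v : R, x = algebraMap R A u + algebraMap R A v * t := Iff.rfl

theorem t_mem (ht : t * t + t = algebraMap R A a) : t ∈ Lt ht :=
  ⟨0, 1, by rw [map_zero, map_one, one_mul, zero_add]⟩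

theorem Lt_range (ht : t * t + t = algebraMap R A a) :
    Subalgebra.toSubmodule (Lt ht) = LinearMap.range (lt R t) := by
  ext x
  rw [Subalgebra.mem_toSubmodule, mem_Lt, LinearMap.mem_range]
  constructor
  · rintro ⟨u, v, rfl⟩
    exact ⟨(u, v), rfl⟩
  · rintro ⟨⟨u, v⟩, rfl⟩
    exact ⟨u, v, rfl⟩

theorem finite_Lt (ht : t * t + t = algebraMap R A a) : FiniteDimensional R (Lt ht) := by
  have h : FiniteDimensional R (Subalgebra.toSubmodule (Lt ht)) := by
    rw [Lt_range]
    infer_instance
  exact h

theorem finrank_Lt [Nontrivial A] (ht : t * t + t = algebraMap R A a)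
    (hnt : ∀ c : R, algebraMap R A c ≠ t) : finrank R (Lt ht) = 2 := by
  have h1 : finrank R (Lt ht) = finrank R (LinearMap.range (lt R t)) := by
    rw [← Lt_range ht]
    rfl
  rw [h1, LinearMap.finrank_range_of_inj (lt_inj R hnt), Module.finrank_prod, Module.finrank_self]

theorem Lt_comm (ht : t * t + t = algebraMap R A a) {x y : A} (hx : x ∈ Lt ht) (hy : y ∈ Lt ht) :
    x * y = y * x := by
  obtain ⟨u, v, rfl⟩ := hx
  obtain ⟨u', v', rfl⟩ := hy
  have c1 : ∀ (c : R) (y : A), Commute (algebraMap R A c) y := fun c y => Algebra.commutes c y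
  have c2 : ∀ (c : R) (y : A), Commute y (algebraMap R A c) := fun c y => (c1 c y).symm
  exact (((c1 _ _).add_right (c1 _ _)).add_left (((c2 _ _).mul_left (c2 _ _)).add_right
    (((c1 _ _).mul_left ((c2 _ _).mul_right (Commute.refl t))))))

theorem mem_cen {x : A} : x ∈ Subalgebra.centralizer R ({t} : Set A) ↔ x * t = t * x := by
  rw [Subalgebra.mem_centralizer_iff]
  constructor
  · intro h
    exact (h t rfl).symm
  · rintro h _ rfl
    exact h.symm

end sub

/-- `t * t + t = a`, and the nonzero elements commuting with `t` are units. -/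
structure Dat (R A : Type) [Field R] [Ring A] [Algebra R A] (t : A) (a : R) : Prop where
  nt : Nontrivial A
  eq : t * t + t = algebraMap R A a
  inv : ∀ c : A, c * t = t * c → c ≠ 0 → IsUnit c

section types

variable {R A : Type} [Field R] [Ring A] [Algebra R A] {t : A} {a : R}

/-- The field `R + R t`. -/
def FL (h : Dat R A t a) : Type := Lt h.eq

/-- The elements commuting with `t`. -/
def CT (_ : Dat R A t a) : Type := Subalgebra.centralizer R ({t} : Set A)

variable (h : Dat R A t a)

instance ringFL : Ring (FL h) := inferInstanceAs (Ring (Lt h.eq))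

instance ringCT : Ring (CT h) :=
  inferInstanceAs (Ring (Subalgebra.centralizer R ({t} : Set A)))

instance algFL : Algebra R (FL h) := inferInstanceAs (Algebra R (Lt h.eq))

instance algCT : Algebra R (CT h) :=
  inferInstanceAs (Algebra R (Subalgebra.centralizer R ({t} : Set A)))

/-- The inclusion of the field. -/
def fv : FL h →+* A where
  toFun x := x.1
  map_one' := rfl
  map_mul' _ _ := rfl
  map_zero' := rfl
  map_add' _ _ := rfl

/-- The inclusion of the centralizer. -/
def cv : CT h →+* A where
  toFun x := x.1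
  map_one' := rfl
  map_mul' _ _ := rfl
  map_zero' := rfl
  map_add' _ _ := rfl

theorem fv_inj : Function.Injective (fv h) := Subtype.val_injective

theorem cv_inj : Function.Injective (cv h) := Subtype.val_injective

theorem fv_alg (c : R) : fv h (algebraMap R (FL h) c) = algebraMap R A c := rfl

theorem cv_alg (c : R) : cv h (algebraMap R (CT h) c) = algebraMap R A c := rfl

theorem fv_mem (x : FL h) : ∃ u v : R, fv h x = algebraMap R A u + algebraMap R A v * t := x.2

theorem exists_fv {x : A} (hx : ∃ u v : R, x = algebraMap R A u + algebraMap R A v * t) :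
    ∃ y : FL h, fv h y = x := ⟨⟨x, hx⟩, rfl⟩

theorem cv_comm (x : CT h) : cv h x * t = t * cv h x := (mem_cen (R := R)).mp x.2

theorem exists_cv {x : A} (hx : x * t = t * x) : ∃ y : CT h, cv h y = x :=
  ⟨⟨x, (mem_cen (R := R)).mpr hx⟩, rfl⟩

theorem fv_comm (x : FL h) : fv h x * t = t * fv h x := Lt_comm h.eq x.2 (t_mem h.eq)

theorem finrank_FL (hnt : ∀ c : R, algebraMap R A c ≠ t) : finrank R (FL h) = 2 := by
  have := h.nt
  exact finrank_Lt h.eq hnt

instance finFL : FiniteDimensional R (FL h) := finite_Lt h.eq

theorem exists_inv_FL {x : FL h} (hx : x ≠ 0) : ∃ y : FL h, x * y = 1 := by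
  have h1 : IsUnit (fv h x) := h.inv _ (fv_comm h x) fun h0 => hx (fv_inj h (by rw [h0, map_zero]))
  have h2 : Function.Injective (LinearMap.mulLeft R x) := by
    intro y z hyz
    have h3 : x * y = x * z := hyz
    apply fv_inj h
    apply h1.mul_left_cancel
    rw [← map_mul, ← map_mul, h3]
  obtain ⟨y, hy⟩ := LinearMap.injective_iff_surjective.mp h2 1
  exact ⟨y, hy⟩

theorem exists_inv_CT {x : CT h} (hx : x ≠ 0) : ∃ y : CT h, x * y = 1 := by
  obtain ⟨u, hu⟩ : IsUnit (cv h x) :=
    h.inv _ (cv_comm h x) fun h0 => hx (cv_inj h (by rw [h0, map_zero]))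
  have h1 : (u : A) * t = t * u := by rw [hu]; exact cv_comm h x
  have h2 : ((u⁻¹ : Aˣ) : A) * t = t * ((u⁻¹ : Aˣ) : A) := by
    have h3 : ((u⁻¹ : Aˣ) : A) * (u * t) * ((u⁻¹ : Aˣ) : A) =
        ((u⁻¹ : Aˣ) : A) * (t * u) * ((u⁻¹ : Aˣ) : A) := by rw [h1]
    rw [← mul_assoc, Units.inv_mul, one_mul, mul_assoc, mul_assoc, Units.mul_inv, mul_one] at h3
    exact h3.symm
  obtain ⟨y, hy⟩ := exists_cv h h2
  refine ⟨y, cv_inj h ?_⟩
  rw [map_mul, map_one, hy, ← hu, Units.mul_inv]

open Classical in
noncomputable instance fieldFL : Field (FL h) :=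
  { ringFL h with
    mul_comm := fun x y => Subtype.ext (Lt_comm h.eq x.2 y.2)
    inv := fun x => if hx : x = 0 then 0 else Classical.choose (exists_inv_FL h hx)
    exists_pair_ne := ⟨0, 1, fun h0 => by
      have := h.nt
      exact zero_ne_one (α := A) (congrArg Subtype.val h0)⟩
    mul_inv_cancel := fun x hx => by
      change x * (dite (x = 0) _ _) = 1
      rw [dif_neg hx]
      exact Classical.choose_spec (exists_inv_FL h hx)
    inv_zero := dif_pos rfl
    nnqsmul := _
    nnqsmul_def := fun _ _ => rfl
    qsmul := _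
    qsmul_def := fun _ _ => rfl }

open Classical in
noncomputable instance divCT : DivisionRing (CT h) :=
  { ringCT h with
    inv := fun x => if hx : x = 0 then 0 else Classical.choose (exists_inv_CT h hx)
    exists_pair_ne := ⟨0, 1, fun h0 => by
      have := h.nt
      exact zero_ne_one (α := A) (congrArg Subtype.val h0)⟩
    mul_inv_cancel := fun x hx => by
      change x * (dite (x = 0) _ _) = 1
      rw [dif_neg hx]
      exact Classical.choose_spec (exists_inv_CT h hx)
    inv_zero := dif_pos rfl
    nnqsmul := _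
    nnqsmul_def := fun _ _ => rfl
    qsmul := _
    qsmul_def := fun _ _ => rfl }

/-- The inclusion of the field in the centralizer. -/
noncomputable def fc : FL h →+* CT h where
  toFun x := ⟨fv h x, mem_cen.mpr (fv_comm h x)⟩
  map_one' := rfl
  map_mul' _ _ := rfl
  map_zero' := rfl
  map_add' _ _ := rfl

theorem cv_fc (x : FL h) : cv h (fc h x) = fv h x := rfl

theorem fv_cv_comm (x : FL h) (y : CT h) : fv h x * cv h y = cv h y * fv h x := by
  obtain ⟨u, v, hx⟩ := fv_mem h x
  rw [hx, add_mul, mul_add, mul_assoc, ← cv_comm, Algebra.commutes, ← mul_assoc, ← mul_assoc,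
    Algebra.commutes v]

noncomputable instance algFC : Algebra (FL h) (CT h) :=
  (fc h).toAlgebra' fun x y => cv_inj h (by
    rw [map_mul, map_mul, cv_fc]
    exact fv_cv_comm h x y)

theorem cv_algF (x : FL h) : cv h (algebraMap (FL h) (CT h) x) = fv h x := rfl

instance towFC : IsScalarTower R (FL h) (CT h) := IsScalarTower.of_algebraMap_eq fun _ => rfl

theorem cv_smul (x : FL h) (y : CT h) : cv h (x • y) = fv h x * cv h y := by
  rw [Algebra.smul_def, map_mul, cv_algF]

end types

/-! ### Elements `y` with `y * t = (t + 1) * y` -/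

section wt

variable {A : Type} [Ring A] {t y z : A}

theorem wt_comm (h2 : (2 : A) = 0) {a : A} (ha : ∀ x : A, a * x = x * a) (ht : t * t + t = a)
    (x : A) : (x * t + t * x) * t = (t + 1) * (x * t + t * x) := by
  have htt : t * t = a - t := by rw [← ht, add_sub_cancel_right]
  have e : (x * t + t * x) * t - (t + 1) * (x * t + t * x) =
      x * (t * t) - (t * t) * x - x * t - t * x := by noncomm_ring
  rw [← sub_eq_zero, e, htt]
  have e2 : x * (a - t) - (a - t) * x - x * t - t * x = x * a - a * x - 2 * (x * t) := by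
    noncomm_ring
  rw [e2, ha, h2, zero_mul, sub_self, sub_zero]

theorem ct_comm (h2 : (2 : A) = 0) {a : A} (ha : ∀ x : A, a * x = x * a) (ht : t * t + t = a)
    (x : A) : (x + (x * t + t * x)) * t = t * (x + (x * t + t * x)) := by
  have h3 := wt_comm h2 ha ht x
  have e : (x + (x * t + t * x)) * t - t * (x + (x * t + t * x)) =
      ((x * t + t * x) * t - (t + 1) * (x * t + t * x)) + 2 * (x * t) := by noncomm_ring
  rw [← sub_eq_zero, e, h3, sub_self, h2, zero_mul, add_zero]

/-- products of two such elements commute with `t` -/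
theorem wt_mul (h2 : (2 : A) = 0) (hy : y * t = (t + 1) * y) (hz : z * t = (t + 1) * z) :
    (y * z) * t = t * (y * z) := by
  calc y * z * t = y * (z * t) := by rw [mul_assoc]
    _ = (y * t) * z + y * z := by rw [hz]; noncomm_ring
    _ = t * (y * z) + 2 * (y * z) := by rw [hy]; noncomm_ring
    _ = t * (y * z) := by rw [h2, zero_mul, add_zero]

theorem wt_star [StarRing A] (h2 : (2 : A) = 0) (hts : star t = t) (hy : y * t = (t + 1) * y) :
    star y * t = (t + 1) * star y := by
  have h3 := congrArg star hy
  rw [star_mul, star_mul, star_add, star_one, hts] at h3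
  have e : star y * t - (t + 1) * star y =
      (star y * (t + 1) - t * star y) - 2 * star y := by noncomm_ring
  rw [← sub_eq_zero, e, ← h3, sub_self, h2, zero_mul, sub_zero]

end wt

end Vale.Agent.P011.H169.C2
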